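import Vale.Agent.P202.CharP.Gen.Defs
import Vale.Agent.P202.CharP.Les

/-!
P202-GEN, GEN-1: inequalities from the long exact sequence of a triple, additivity of the Euler
characteristic, second isomorphism theorem for relative homology.
-/

namespace Vale.Agent.P202.CharP.Gen

open Submodule TensorProduct IsLocalRing

section Hom

variable {S 𝕋 : Type*} [CommRing S] [AddCommGroup 𝕋] [Module S 𝕋]

theorem hh_le_add (D : 𝕋 →ₗ[S] 𝕋) (hD : ∀ x, D (D x) = 0) (X Y Z : ℤ → Submodule S 𝕋)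
    (hX : Stab D X) (hY : Stab D Y) (hZ : Stab D Z) (hXY : ∀ δ, X δ ≤ Y δ)
    (hYZ : ∀ δ, Y δ ≤ Z δ) (δ : ℤ) : hh D Z X δ ≤ hh D Z Y δ + hh D Y X δ := by
  obtain ⟨h1, h2, h3⟩ := hh_les D hD X Y Z hX hY hZ hXY hYZ δ
  rw [h1, add_comm]
  refine add_le_add ?_ ?_
  · rw [h2]; exact le_self_add
  · rw [h3]; exact le_add_self

theorem hh_sub_le (D : 𝕋 →ₗ[S] 𝕋) (hD : ∀ x, D (D x) = 0) (X Y Z : ℤ → Submodule S 𝕋)
    (hX : Stab D X) (hY : Stab D Y) (hZ : Stab D Z) (hXY : ∀ δ, X δ ≤ Y δ)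
    (hYZ : ∀ δ, Y δ ≤ Z δ) (δ : ℤ) : hh D Y X δ ≤ hh D Z X δ + hh D Z Y (δ + 1) := by
  obtain ⟨h1, h2, h3⟩ := hh_les D hD X Y Z hX hY hZ hXY hYZ δ
  obtain ⟨k1, k2, k3⟩ := hh_les D hD X Y Z hX hY hZ hXY hYZ (δ + 1)
  rw [h3, add_comm]
  refine add_le_add ?_ ?_
  · rw [h1]; exact le_self_add
  · rw [k2, add_sub_cancel_right]; exact le_add_self

theorem hh_quot_le (D : 𝕋 →ₗ[S] 𝕋) (hD : ∀ x, D (D x) = 0) (X Y Z : ℤ → Submodule S 𝕋)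
    (hX : Stab D X) (hY : Stab D Y) (hZ : Stab D Z) (hXY : ∀ δ, X δ ≤ Y δ)
    (hYZ : ∀ δ, Y δ ≤ Z δ) (δ : ℤ) : hh D Z Y δ ≤ hh D Z X δ + hh D Y X (δ - 1) := by
  obtain ⟨h1, h2, h3⟩ := hh_les D hD X Y Z hX hY hZ hXY hYZ δ
  obtain ⟨k1, k2, k3⟩ := hh_les D hD X Y Z hX hY hZ hXY hYZ (δ - 1)
  rw [h2]
  refine add_le_add ?_ ?_
  · rw [h1]; exact le_add_self
  · rw [k3, sub_add_cancel]; exact le_self_add

theorem hh_le_of_zz_le (D : 𝕋 →ₗ[S] 𝕋) (hD : ∀ x, D (D x) = 0) (X Y Z : ℤ → Submodule S 𝕋)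
    (hX : Stab D X) (hY : Stab D Y) (hZ : Stab D Z) (hXY : ∀ δ, X δ ≤ Y δ)
    (hYZ : ∀ δ, Y δ ≤ Z δ) (δ : ℤ) (h : zz D Y X δ ≤ bb D Z X δ) :
    hh D Y X δ ≤ hh D Z Y (δ + 1) := by
  obtain ⟨h1, h2, h3⟩ := hh_les D hD X Y Z hX hY hZ hXY hYZ δ
  obtain ⟨k1, k2, k3⟩ := hh_les D hD X Y Z hX hY hZ hXY hYZ (δ + 1)
  rw [h3, rl_eq_zero_iff.mpr (sup_le h le_rfl), add_zero, k2, add_sub_cancel_right]
  exact le_add_self

lemma sum_Ico_telescope (g : ℤ → ℤ) (a : ℤ) (m : ℕ) :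
    ∑ δ ∈ Finset.Ico a (a + m), (g δ - g (δ + 1)) = g a - g (a + m) := by
  induction m with
  | zero => simp
  | succ m ih =>
    have h : Finset.Ico a (a + ((m + 1 : ℕ) : ℤ)) = insert (a + m) (Finset.Ico a (a + m)) := by
      ext x; simp only [Finset.mem_Ico, Finset.mem_insert]; push_cast; omega
    rw [h, Finset.sum_insert (by simp), ih]
    push_cast
    rw [add_assoc]
    ring

lemma sum_Icc_telescope (g : ℤ → ℤ) (a b : ℤ) (hab : a ≤ b + 1) :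
    ∑ δ ∈ Finset.Icc a b, (g δ - g (δ + 1)) = g a - g (b + 1) := by
  obtain ⟨m, hm⟩ := Int.eq_ofNat_of_zero_le (sub_nonneg.mpr hab)
  have hb : b + 1 = a + m := by rw [← hm]; ring
  have : Finset.Icc a b = Finset.Ico a (a + m) := by
    ext x; simp only [Finset.mem_Ico, Finset.mem_Icc]; omega
  rw [this, sum_Ico_telescope, hb]

theorem xi_add (n : ℕ) (D : 𝕋 →ₗ[S] 𝕋) (hD : ∀ x, D (D x) = 0) (X Y Z : ℤ → Submodule S 𝕋)
    (hX : Stab D X) (hY : Stab D Y) (hZ : Stab D Z) (hXY : ∀ δ, X δ ≤ Y δ)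
    (hYZ : ∀ δ, Y δ ≤ Z δ) (h1 : ∀ δ, hh D Z Y δ ≠ ⊤) (h2 : ∀ δ, hh D Y X δ ≠ ⊤)
    (h3 : ∀ δ, (δ < -(n : ℤ) ∨ (n : ℤ) < δ) → hh D Z Y δ = 0 ∧ hh D Y X δ = 0) :
    xi n (hh D Z X) = xi n (hh D Z Y) + xi n (hh D Y X) := by
  set a : ℤ → ℕ∞ := fun δ => rl (bb D Z X δ) (zz D Y X δ ⊔ bb D Z X δ) with ha
  set b : ℤ → ℕ∞ := fun δ => rl (bb D Z Y δ) (zz D Z X δ ⊔ bb D Z Y δ) with hb
  set c : ℤ → ℕ∞ := fun δ =>
    rl (bb D Y X (δ - 1)) ((zz D Z Y δ).map D ⊔ bb D Y X (δ - 1)) with hc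
  have e1 : ∀ δ, hh D Z X δ = a δ + b δ := fun δ =>
    (hh_les D hD X Y Z hX hY hZ hXY hYZ δ).1
  have e2 : ∀ δ, hh D Z Y δ = b δ + c δ := fun δ =>
    (hh_les D hD X Y Z hX hY hZ hXY hYZ δ).2.1
  have e3 : ∀ δ, hh D Y X δ = c (δ + 1) + a δ := fun δ => by
    rw [(hh_les D hD X Y Z hX hY hZ hXY hYZ δ).2.2, hc]
    simp only [add_sub_cancel_right]
    rfl
  have fb : ∀ δ, b δ ≠ ⊤ := fun δ h => h1 δ (by rw [e2, h, top_add])
  have fc : ∀ δ, c δ ≠ ⊤ := fun δ h => h1 δ (by rw [e2, h, add_top])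
  have fa : ∀ δ, a δ ≠ ⊤ := fun δ h => h2 δ (by rw [e3, h, add_top])
  have c0 : ∀ δ, (δ < -(n : ℤ) ∨ (n : ℤ) < δ) → c δ = 0 := fun δ h => by
    have := (h3 δ h).1
    rw [e2, add_eq_zero] at this
    exact this.2
  have c1 : c (-(n : ℤ)) = 0 := by
    have := (h3 (-(n : ℤ) - 1) (Or.inl (by omega))).2
    rw [e3, add_eq_zero, sub_add_cancel] at this
    exact this.1
  have c2 : c ((n : ℤ) + 1) = 0 := c0 _ (Or.inr (by omega))
  have key : ∀ δ, (δ.negOnePow : ℤ) * ((hh D Z Y δ).toNat : ℤ) +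
      (δ.negOnePow : ℤ) * ((hh D Y X δ).toNat : ℤ) =
      (δ.negOnePow : ℤ) * ((hh D Z X δ).toNat : ℤ) +
        ((δ.negOnePow : ℤ) * ((c δ).toNat : ℤ) -
          ((δ + 1).negOnePow : ℤ) * ((c (δ + 1)).toNat : ℤ)) := fun δ => by
    rw [e1, e2, e3, ENat.toNat_add (fb δ) (fc δ), ENat.toNat_add (fc (δ + 1)) (fa δ),
      ENat.toNat_add (fa δ) (fb δ), Int.negOnePow_succ]
    push_cast
    ring
  have tel := sum_Icc_telescope (fun δ => (δ.negOnePow : ℤ) * ((c δ).toNat : ℤ)) (-(n : ℤ)) n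
    (by omega)
  rw [c1, c2] at tel
  rw [xi, xi, xi, ← Finset.sum_add_distrib, Finset.sum_congr rfl fun δ _ => key δ,
    Finset.sum_add_distrib, tel]
  simp

theorem hh_iso (D : 𝕋 →ₗ[S] 𝕋) (X Y X' Y' : ℤ → Submodule S 𝕋)
    (hX : Stab D X) (hY : Stab D Y) (hX' : Stab D X')
    (h1 : ∀ δ, Y δ ⊓ X' δ = X δ) (h2 : ∀ δ, Y δ ⊔ X' δ = Y' δ) (δ : ℤ) :
    hh D Y X δ = hh D Y' X' δ := by
  have _ := hX
  have lX : ∀ δ, X δ ≤ X' δ := fun δ => (h1 δ).ge.trans inf_le_right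
  have lY : ∀ δ, Y δ ≤ Y' δ := fun δ => (h2 δ).le.trans' le_sup_left
  have z1 : zz D Y X δ ≤ zz D Y' X' δ := inf_le_inf (lY δ) (Submodule.comap_mono (lX _))
  have b1 : bb D Y X δ ≤ bb D Y' X' δ := sup_le_sup (Submodule.map_mono (lY _)) (lX δ)
  have s1 : bb D Y' X' δ ⊔ zz D Y' X' δ = bb D Y' X' δ ⊔ zz D Y X δ := by
    apply le_antisymm _ (sup_le_sup_left z1 _)
    refine sup_le le_sup_left ?_
    rintro z ⟨hz1, hz2⟩
    have hz1' : z ∈ Y δ ⊔ X' δ := by rw [h2]; exact hz1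
    obtain ⟨y, hy, x, hx, rfl⟩ := Submodule.mem_sup.mp hz1'
    have hDy : D y ∈ X (δ - 1) := by
      rw [← h1]
      refine ⟨hY δ y hy, ?_⟩
      have h4 : D (y + x) ∈ X' (δ - 1) := hz2
      have h5 : D y = D (y + x) - D x := by rw [map_add, add_sub_cancel_right]
      rw [h5]
      exact Submodule.sub_mem _ h4 (hX' δ x hx)
    rw [add_comm]
    exact Submodule.add_mem_sup (Submodule.mem_sup_right hx) ⟨hy, hDy⟩
  have s2 : bb D Y' X' δ ⊓ zz D Y X δ = bb D Y X δ ⊓ zz D Y X δ := by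
    apply le_antisymm _ (inf_le_inf_right _ b1)
    refine le_inf ?_ inf_le_right
    rintro y ⟨hy1, hy2⟩
    obtain ⟨_, ⟨y', hy', rfl⟩, x', hx', rfl⟩ := Submodule.mem_sup.mp hy1
    have hy'' : y' ∈ Y (δ + 1) ⊔ X' (δ + 1) := by rw [h2]; exact hy'
    obtain ⟨u, hu, v, hv, rfl⟩ := Submodule.mem_sup.mp hy''
    have hDv : D v ∈ X' δ := by
      have := hX' _ v hv
      rwa [add_sub_cancel_right] at this
    have hDu : D u ∈ Y δ := by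
      have := hY _ u hu
      rwa [add_sub_cancel_right] at this
    have hw : D v + x' ∈ X δ := by
      rw [← h1]
      refine ⟨?_, Submodule.add_mem _ hDv hx'⟩
      have : D v + x' = (D (u + v) + x') - D u := by rw [map_add]; abel
      rw [this]
      exact Submodule.sub_mem _ hy2.1 hDu
    have : D (u + v) + x' = D u + (D v + x') := by rw [map_add]; abel
    rw [this]
    exact Submodule.add_mem_sup ⟨u, hu, rfl⟩ hw
  rw [hh, hh, ← rl_sup_right (bb D Y' X' δ), s1, rl_sup_right, ← rl_inf_left (bb D Y' X' δ), s2,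
    rl_inf_left]

end Hom

end Vale.Agent.P202.CharP.Gen
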