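import Vale.Agent.P202.CharP.Gen.Defs
import Vale.Agent.P202.CharP.TotBasic
import Vale.Agent.P202.CharP.BaseCh

/-!
P202-GEN-4: truncated families, stability and the lifting lemma.
-/

set_option linter.all false

namespace Vale.Agent.P202.CharP.Gen

open Submodule TensorProduct IsLocalRing

/-- complements modulo a submodule containing `m Z`. -/
theorem exists_compl_mod {A : Type*} [CommRing A] {V : Type*} [AddCommGroup V] [Module A V]
    (m : Ideal A) [m.IsMaximal] (X Y Z : Submodule A V) (hXY : X ≤ Y) (hYZ : Y ≤ Z)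
    (hm : m • Z ≤ X) : ∃ C : Submodule A V, X ≤ C ∧ C ≤ Z ∧ C ⊓ Y = X ∧ C ⊔ Y = Z := by
  let _ : Field (A ⧸ m) := Ideal.Quotient.field m
  let N := ↥Z ⧸ X.submoduleOf Z
  have hk : ∀ a ∈ m, ∀ x : N, a • x = 0 := by
    intro a ha x
    obtain ⟨x, rfl⟩ := Submodule.Quotient.mk_surjective _ x
    rw [← Submodule.Quotient.mk_smul, Submodule.Quotient.mk_eq_zero]
    exact hm (Submodule.smul_mem_smul ha x.2)
  have htor : Module.IsTorsionBySet A N m := fun x r => hk r.1 r.2 x
  let _ : Module (A ⧸ m) N := htor.module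
  have : IsScalarTower A (A ⧸ m) N := htor.isScalarTower
  let Y1 : Submodule A N := (Y.submoduleOf Z).map (X.submoduleOf Z).mkQ
  let Y2 : Submodule (A ⧸ m) N :=
    { carrier := Y1
      add_mem' := fun h h' => Y1.add_mem h h'
      zero_mem' := Y1.zero_mem
      smul_mem' := by
        intro c x hx
        obtain ⟨a, rfl⟩ := Ideal.Quotient.mk_surjective c
        have : (Ideal.Quotient.mk m a) • x = a • x := rfl
        rw [this]
        exact Y1.smul_mem a hx }
  obtain ⟨C1, hC1⟩ := Submodule.exists_isCompl Y2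
  let C2 : Submodule A N := C1.restrictScalars A
  let C3 : Submodule A Z := C2.comap (X.submoduleOf Z).mkQ
  refine ⟨C3.map Z.subtype, ?_, ?_, ?_, ?_⟩
  · intro x hx
    refine ⟨⟨x, hYZ (hXY hx)⟩, ?_, rfl⟩
    have h0 : (X.submoduleOf Z).mkQ ⟨x, hYZ (hXY hx)⟩ = 0 :=
      (Submodule.Quotient.mk_eq_zero _).2 hx
    change (X.submoduleOf Z).mkQ ⟨x, hYZ (hXY hx)⟩ ∈ C1
    rw [h0]
    exact C1.zero_mem
  · rintro _ ⟨z, -, rfl⟩
    exact z.2
  · refine le_antisymm ?_ (le_inf ?_ hXY)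
    · rintro _ ⟨⟨z, hz, rfl⟩, hy⟩
      have h1 : (X.submoduleOf Z).mkQ z ∈ C1 := hz
      have h2 : (X.submoduleOf Z).mkQ z ∈ Y2 := ⟨z, hy, rfl⟩
      have h3 : (X.submoduleOf Z).mkQ z ∈ (⊥ : Submodule (A ⧸ m) N) := by
        rw [← hC1.inf_eq_bot]
        exact ⟨h2, h1⟩
      have h4 : (X.submoduleOf Z).mkQ z = 0 := by simpa using h3
      have h5 : z ∈ X.submoduleOf Z := (Submodule.Quotient.mk_eq_zero _).1 h4
      exact h5
    · intro x hx
      refine ⟨⟨x, hYZ (hXY hx)⟩, ?_, rfl⟩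
      have h0 : (X.submoduleOf Z).mkQ ⟨x, hYZ (hXY hx)⟩ = 0 :=
        (Submodule.Quotient.mk_eq_zero _).2 hx
      change (X.submoduleOf Z).mkQ ⟨x, hYZ (hXY hx)⟩ ∈ C1
      rw [h0]
      exact C1.zero_mem
  · refine le_antisymm (sup_le ?_ hYZ) ?_
    · rintro _ ⟨z, -, rfl⟩
      exact z.2
    · intro z hz
      have h1 : (X.submoduleOf Z).mkQ ⟨z, hz⟩ ∈ (⊤ : Submodule (A ⧸ m) N) := trivial
      rw [← hC1.sup_eq_top] at h1
      obtain ⟨y, hy, c, hc, hyc⟩ := Submodule.mem_sup.1 h1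
      obtain ⟨y', hy', rfl⟩ := hy
      have hc' : (X.submoduleOf Z).mkQ (⟨z, hz⟩ - y') ∈ C1 := by
        rw [map_sub, ← hyc, add_sub_cancel_left]
        exact hc
      have e : z = Z.subtype (⟨z, hz⟩ - y') + (y' : V) := by simp
      rw [e]
      exact Submodule.add_mem _ (mem_sup_left ⟨_, hc', rfl⟩) (mem_sup_right hy')

section TGsec

variable {A : Type*} [CommRing A] {V : Type*} [AddCommGroup V] [Module A V]
  (S : Type*) [CommRing S] [Algebra A S] {ι : Type*} [Fintype ι]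

theorem mem_tg (deg : ι → ℤ) (Q : Matrix ι ι S) (j : ℤ) (Y X : ℤ → Submodule A V) (δ : ℤ)
    (f : ι → S ⊗[A] V) : f ∈ TG S deg Q j Y X δ ↔ (∀ a, f a ∈ bcf S Y (deg a - δ)) ∧
      (∀ a, deg a ≤ j → f a ∈ bcf S X (deg a - δ)) ∧
      ∀ a, deg a ≤ j → act Q (S ⊗[A] V) f a ∈ bcf S X (deg a - δ + 1) := by
  rw [TG, Submodule.mem_inf, Submodule.mem_inf, mem_lift, Submodule.mem_pi, Submodule.mem_comap,
    Submodule.mem_pi]
  refine and_congr Iff.rfl (and_congr ?_ ?_)
  · refine forall_congr' fun a => ?_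
    by_cases h : deg a ≤ j <;> simp [h]
  · refine forall_congr' fun a => ?_
    by_cases h : deg a ≤ j <;> simp [h]

theorem bcf_mono {X Y : ℤ → Submodule A V} (h : ∀ p, X p ≤ Y p) (p : ℤ) :
    bcf S X p ≤ bcf S Y p := baseChange_mono S (h p)

theorem bcf_cstab (d : V →ₗ[A] V) {X : ℤ → Submodule A V} (hX : CStab d X) :
    CStab (d.baseChange S) (bcf S X) := by
  intro p x hx
  have h1 : (X p).map d ≤ X (p + 1) := by
    rintro _ ⟨y, hy, rfl⟩
    exact hX p y hy
  have h2 := baseChange_mono S h1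
  rw [baseChange_map] at h2
  exact h2 ⟨x, hx, rfl⟩

/-- `Q f` at `a` only involves degree `deg a + 1`. -/
theorem act_mem_of_deg {M : Type*} [AddCommGroup M] [Module S M] (deg : ι → ℤ)
    (Q : Matrix ι ι S) (hQ : IsCx deg Q) (f : ι → M) (a : ι) (P : Submodule S M)
    (h : ∀ b, deg b = deg a + 1 → f b ∈ P) : act Q M f a ∈ P := by
  rw [act_apply]
  refine P.sum_mem fun b _ => ?_
  by_cases hb : Q a b = 0
  · simp [hb]
  · exact P.smul_mem _ (h b (hQ.deg_eq a b hb))

theorem act_act {M : Type*} [AddCommGroup M] [Module S M] (deg : ι → ℤ)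
    (Q : Matrix ι ι S) (hQ : IsCx deg Q) (f : ι → M) : act Q M (act Q M f) = 0 := by
  rw [← act_mul, hQ.sq, act_zero]

/-- `Q (± d f) = - (± d (Q f))`. -/
theorem act_sign {M : Type*} [AddCommGroup M] [Module S M] (deg : ι → ℤ)
    (Q : Matrix ι ι S) (hQ : IsCx deg Q) (d : M →ₗ[S] M) (f : ι → M) (a : ι) :
    act Q M (fun b => ((deg b).negOnePow : ℤ) • d (f b)) a =
      -(((deg a).negOnePow : ℤ) • d (act Q M f a)) := by
  have h2 : ∀ b, Q a b • (((deg b).negOnePow : ℤ) • d (f b)) =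
      -(((deg a).negOnePow : ℤ) • (Q a b • d (f b))) := by
    intro b
    by_cases hb : Q a b = 0
    · simp [hb]
    · rw [hQ.deg_eq a b hb, negOnePow_succ', neg_smul, smul_neg, smul_comm]
  rw [act_apply, act_apply, Finset.sum_congr rfl (fun b _ => h2 b), Finset.sum_neg_distrib,
    map_sum, Finset.smul_sum]
  simp only [map_smul]

end TGsec

section TGmain

variable {A : Type*} [CommRing A] [IsLocalRing A] {V : Type*} [AddCommGroup V] [Module A V]
  (S : Type*) [CommRing S] [Algebra A S] [Module.Flat A S] {ι : Type*} [Fintype ι]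

/-- TASK GEN-4. -/
theorem tg_stab (deg : ι → ℤ) (Q : Matrix ι ι S)
    (hQ : IsCx deg Q) (j : ℤ) (d : V →ₗ[A] V)
    (Y X : ℤ → Submodule A V) (hX : CStab d X) (hY : CStab d Y) (hXY : ∀ p, X p ≤ Y p) :
    Stab (tot deg Q (d.baseChange S)) (TG S deg Q j Y X) := by
  intro δ f hf
  have hdY := bcf_cstab S d hY
  have hdX := bcf_cstab S d hX
  rw [mem_tg] at hf ⊢
  obtain ⟨h1, h2, h3⟩ := hf
  have e : tot deg Q (d.baseChange S) f = act Q (S ⊗[A] V) f +
      (fun b => ((deg b).negOnePow : ℤ) • (d.baseChange S) (f b)) := by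
    ext a; rfl
  refine ⟨fun a => ?_, fun a ha => ?_, fun a ha => ?_⟩
  · rw [tot_eq]
    have e1 : deg a - (δ - 1) = deg a - δ + 1 := by ring
    rw [e1]
    refine Submodule.add_mem _ ?_ (zsmul_mem (hdY _ _ (h1 a)) _)
    refine act_mem_of_deg S deg Q hQ f a _ fun b hb => ?_
    have := h1 b
    rw [hb] at this
    have e2 : deg a + 1 - δ = deg a - δ + 1 := by ring
    rwa [e2] at this
  · rw [tot_eq]
    have e1 : deg a - (δ - 1) = deg a - δ + 1 := by ring
    rw [e1]
    exact Submodule.add_mem _ (h3 a ha) (zsmul_mem (hdX _ _ (h2 a ha)) _)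
  · rw [e, map_add, act_act S deg Q hQ, zero_add, act_sign S deg Q hQ]
    have e1 : deg a - (δ - 1) + 1 = deg a - δ + 1 + 1 := by ring
    rw [e1]
    exact Submodule.neg_mem _ (zsmul_mem (hdX _ _ (h3 a ha)) _)

/-- TASK GEN-4. -/
theorem lift_le_tg (deg : ι → ℤ) (Q : Matrix ι ι S)
    (hQ : IsCx deg Q) (j : ℤ)
    (Y X : ℤ → Submodule A V) (hXY : ∀ p, X p ≤ Y p) (δ : ℤ) :
    lift deg (bcf S X) δ ≤ TG S deg Q j Y X δ := by
  intro f hf
  rw [mem_lift] at hf
  rw [mem_tg]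
  refine ⟨fun a => bcf_mono S hXY _ (hf a), fun a _ => hf a, fun a _ => ?_⟩
  refine act_mem_of_deg S deg Q hQ f a _ fun b hb => ?_
  have := hf b
  rw [hb] at this
  have e2 : deg a + 1 - δ = deg a - δ + 1 := by ring
  rwa [e2] at this

/-- TASK GEN-4. -/
theorem tg_le_lift (deg : ι → ℤ) (Q : Matrix ι ι S) (j : ℤ)
    (Y X : ℤ → Submodule A V) (δ : ℤ) :
    TG S deg Q j Y X δ ≤ lift deg (bcf S Y) δ := inf_le_left

/-- TASK GEN-4: the lifting lemma. -/
theorem tg_lift (deg : ι → ℤ) (Q : Matrix ι ι S)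
    (hQ : IsCx deg Q) (j : ℤ)
    (Z Y X : ℤ → Submodule A V) (hXY : ∀ p, X p ≤ Y p) (hYZ : ∀ p, Y p ≤ Z p)
    (hm : ∀ p, maximalIdeal A • Z p ≤ X p) (δ : ℤ) :
    TG S deg Q j Z X δ ⊔ lift deg (bcf S Y) δ = TG S deg Q j Z Y δ := by
  refine le_antisymm (sup_le ?_ (lift_le_tg S deg Q hQ j Z Y hYZ δ)) ?_
  · intro f hf
    rw [mem_tg] at hf ⊢
    exact ⟨hf.1, fun a ha => bcf_mono S hXY _ (hf.2.1 a ha),
      fun a ha => bcf_mono S hXY _ (hf.2.2 a ha)⟩
  · intro f hf
    rw [mem_tg] at hf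
    obtain ⟨h1, h2, h3⟩ := hf
    choose C hC1 hC2 hC3 hC4 using fun p =>
      exists_compl_mod (maximalIdeal A) (X p) (Y p) (Z p) (hXY p) (hYZ p) (hm p)
    have hsup : ∀ p, bcf S C p ⊔ bcf S Y p = bcf S Z p := by
      intro p
      change (C p).baseChange S ⊔ (Y p).baseChange S = (Z p).baseChange S
      rw [← baseChange_sup', hC4]
    have hinf : ∀ p, bcf S C p ⊓ bcf S Y p = bcf S X p := by
      intro p
      change (C p).baseChange S ⊓ (Y p).baseChange S = (X p).baseChange S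
      rw [← baseChange_inf, hC3]
    have hdec : ∀ b, ∃ g ∈ bcf S C (deg b - δ), ∃ f' ∈ bcf S Y (deg b - δ), g + f' = f b ∧
        (deg b ≤ j → g = 0) := by
      intro b
      by_cases hb : deg b ≤ j
      · exact ⟨0, Submodule.zero_mem _, f b, h2 b hb, zero_add _, fun _ => rfl⟩
      · have := h1 b
        rw [← hsup] at this
        obtain ⟨g, hg, f', hf', e⟩ := Submodule.mem_sup.1 this
        exact ⟨g, hg, f', hf', e, fun h => absurd h hb⟩
    choose g hg f' hf' hgf hg0 using hdec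
    have hfe : f = g + f' := by
      ext b
      exact (hgf b).symm
    rw [hfe]
    refine Submodule.add_mem _ (mem_sup_left ?_) (mem_sup_right ?_)
    · rw [mem_tg]
      refine ⟨fun a => bcf_mono S hC2 _ (hg a), fun a ha => ?_, fun a ha => ?_⟩
      · rw [hg0 a ha]
        exact Submodule.zero_mem _
      · rw [← hinf]
        refine ⟨?_, ?_⟩
        · refine act_mem_of_deg S deg Q hQ g a _ fun b hb => ?_
          have := hg b
          rw [hb] at this
          have e2 : deg a + 1 - δ = deg a - δ + 1 := by ring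
          rwa [e2] at this
        · have e3 : act Q (S ⊗[A] V) g a = act Q (S ⊗[A] V) f a - act Q (S ⊗[A] V) f' a := by
            rw [hfe, map_add, Pi.add_apply, add_sub_cancel_right]
          rw [e3]
          refine Submodule.sub_mem _ (h3 a ha) ?_
          refine act_mem_of_deg S deg Q hQ f' a _ fun b hb => ?_
          have := hf' b
          rw [hb] at this
          have e2 : deg a + 1 - δ = deg a - δ + 1 := by ring
          rwa [e2] at this
    · rw [mem_lift]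
      exact hf'

end TGmain

end Vale.Agent.P202.CharP.Gen
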