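import Vale.Agent.P202.CharP.Gen.LesG
import Vale.Agent.P202.CharP.Gen.TruncG
import Vale.Agent.P202.CharP.TotBasic
import Vale.Agent.P202.CharP.TotRows
import Vale.Agent.P202.CharP.BaseCh

/-!
P202-GEN, task GEN-5: homology of the truncated window.
-/

namespace Vale.Agent.P202.CharP.Gen

open Submodule TensorProduct IsLocalRing

section

variable {A : Type*} [CommRing A] {V : Type*} [AddCommGroup V] [Module A V]
  (S : Type*) [CommRing S] [Algebra A S] {ι : Type*} [Fintype ι]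

theorem wg_cstab_bcf (d : V →ₗ[A] V) (X : ℤ → Submodule A V) (hX : CStab d X) :
    CStab (d.baseChange S) (bcf S X) := by
  intro p x hx
  have h1 : (X p).map d ≤ X (p + 1) := by
    rintro _ ⟨y, hy, rfl⟩
    exact hX p y hy
  have h2 := baseChange_mono S h1
  rw [baseChange_map] at h2
  exact h2 ⟨x, hx, rfl⟩

theorem wg_bcf_mono {X Y : ℤ → Submodule A V} (h : ∀ p, X p ≤ Y p) (p : ℤ) :
    bcf S X p ≤ bcf S Y p := baseChange_mono S (h p)

theorem wg_mem_tg {deg : ι → ℤ} {Q : Matrix ι ι S} {j : ℤ} {Y X : ℤ → Submodule A V} {δ : ℤ}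
    {f : ι → S ⊗[A] V} : f ∈ TG S deg Q j Y X δ ↔
      (∀ a, f a ∈ bcf S Y (deg a - δ)) ∧ (∀ a, deg a ≤ j → f a ∈ bcf S X (deg a - δ)) ∧
        ∀ a, deg a ≤ j → (∑ b, Q a b • f b) ∈ bcf S X (deg a - δ + 1) := by
  unfold TG
  rw [Submodule.mem_inf, Submodule.mem_inf, mem_lift, Submodule.mem_comap, Submodule.mem_pi,
    Submodule.mem_pi]
  refine and_congr_right fun _ => and_congr ?_ ?_
  · refine forall_congr' fun a => ?_
    by_cases h : deg a ≤ j
    · simp [h]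
    · simp [h]
  · refine forall_congr' fun a => ?_
    rw [act_apply]
    by_cases h : deg a ≤ j
    · simp [h]
    · simp [h]

/-- `Σ Q a b f b` only involves the degree `deg a + 1`. -/
theorem wg_sum_mem {M : Type*} [AddCommGroup M] [Module S M] {deg : ι → ℤ} {Q : Matrix ι ι S}
    (hQ : IsCx deg Q) {K : Submodule S M} {f : ι → M} {a : ι}
    (h : ∀ b, deg b = deg a + 1 → f b ∈ K) : (∑ b, Q a b • f b) ∈ K := by
  refine Submodule.sum_mem _ fun b _ => ?_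
  by_cases hb : Q a b = 0
  · rw [hb, zero_smul]
    exact zero_mem _
  · exact Submodule.smul_mem _ _ (h b (hQ.deg_eq a b hb))

theorem wg_tg_neg {deg : ι → ℤ} {Q : Matrix ι ι S} (hdeg : ∀ a, 0 ≤ deg a)
    (Y X : ℤ → Submodule A V) : TG S deg Q (-1) Y X = lift deg (bcf S Y) := by
  funext δ
  ext f
  rw [wg_mem_tg, mem_lift]
  refine ⟨fun h => h.1, fun h => ⟨h, fun a ha => ?_, fun a ha => ?_⟩⟩
  · have := hdeg a; omega
  · have := hdeg a; omega

theorem wg_tg_self {deg : ι → ℤ} {Q : Matrix ι ι S} (hQ : IsCx deg Q) (j : ℤ)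
    (X : ℤ → Submodule A V) : TG S deg Q j X X = lift deg (bcf S X) := by
  funext δ
  ext f
  rw [wg_mem_tg, mem_lift]
  refine ⟨fun h => h.1, fun h => ⟨h, fun a _ => h a, fun a _ => ?_⟩⟩
  refine wg_sum_mem S hQ fun b hb => ?_
  have := h b
  rwa [hb, show deg a + 1 - δ = deg a - δ + 1 by ring] at this

/-- intersection with a smaller window, below. -/
theorem wg_tg_inf (deg : ι → ℤ) (Q : Matrix ι ι S) (j : ℤ) {Z' Z X : ℤ → Submodule A V}
    (h : ∀ p, Z p ≤ Z' p) (δ : ℤ) :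
    TG S deg Q j Z' X δ ⊓ lift deg (bcf S Z) δ = TG S deg Q j Z X δ := by
  ext f
  rw [Submodule.mem_inf, wg_mem_tg, wg_mem_tg, mem_lift]
  constructor
  · rintro ⟨⟨h1, h2, h3⟩, h4⟩
    exact ⟨h4, h2, h3⟩
  · rintro ⟨h1, h2, h3⟩
    exact ⟨⟨fun a => wg_bcf_mono S h _ (h1 a), h2, h3⟩, h1⟩

end

section

variable {A : Type*} [CommRing A] [IsLocalRing A] {V : Type*} [AddCommGroup V] [Module A V]
  (S : Type*) [CommRing S] [Algebra A S] [Module.Flat A S] {ι : Type*} [Fintype ι]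

/-- STEP 1, lower. -/
theorem wg_step_lower (deg : ι → ℤ) (Q : Matrix ι ι S) (hQ : IsCx deg Q) (j : ℤ)
    (d : V →ₗ[A] V) (X Z Z' : ℤ → Submodule A V) (hX : CStab d X)
    (hZ : CStab d Z) (hZ' : CStab d Z') (h1 : ∀ p, X p ≤ Z p) (h2 : ∀ p, Z p ≤ Z' p)
    (hm : ∀ p, maximalIdeal A • Z' p ≤ X p) (δ : ℤ) :
    hh (tot deg Q (d.baseChange S)) (TG S deg Q j Z' X) (TG S deg Q j Z X) δ =
      hh (tot deg Q (d.baseChange S)) (TG S deg Q j Z' Z) (lift deg (bcf S Z)) δ := by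
  refine hh_iso _ _ _ _ _ (tg_stab S deg Q hQ j d Z X hX hZ h1)
    (tg_stab S deg Q hQ j d Z' X hX hZ' fun p => (h1 p).trans (h2 p))
    (lift_stab deg Q hQ _ _ (wg_cstab_bcf S d Z hZ)) (fun δ => wg_tg_inf S deg Q j h2 δ)
    (fun δ => tg_lift S deg Q hQ j Z' Z X h1 h2 hm δ) δ

/-- STEP 1, upper. -/
theorem wg_step_upper (deg : ι → ℤ) (Q : Matrix ι ι S) (hQ : IsCx deg Q) (j : ℤ)
    (d : V →ₗ[A] V) (Y Z Z' : ℤ → Submodule A V) (hY : CStab d Y)
    (hZ : CStab d Z) (hZ' : CStab d Z') (h1 : ∀ p, Z p ≤ Z' p) (h2 : ∀ p, Z' p ≤ Y p)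
    (hm : ∀ p, maximalIdeal A • Y p ≤ Z p) (δ : ℤ) :
    hh (tot deg Q (d.baseChange S)) (TG S deg Q j Y Z') (TG S deg Q j Y Z) δ =
      hh (tot deg Q (d.baseChange S)) (lift deg (bcf S Z')) (TG S deg Q j Z' Z) δ := by
  refine (hh_iso _ _ _ _ _ (tg_stab S deg Q hQ j d Z' Z hZ hZ' h1)
    (lift_stab deg Q hQ _ _ (wg_cstab_bcf S d Z' hZ'))
    (tg_stab S deg Q hQ j d Y Z hZ hY fun p => (h1 p).trans (h2 p)) (fun δ => ?_)
    (fun δ => ?_) δ).symm
  · rw [inf_comm]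
    exact wg_tg_inf S deg Q j h2 δ
  · rw [sup_comm]
    exact tg_lift S deg Q hQ j Y Z' Z h1 h2 hm δ


end

section W

variable {A : Type*} [CommRing A] {V : Type*} [AddCommGroup V] [Module A V]

/-- `Y` below `p`, boundaries at `p`, `X` above. -/
def wlo (d : V →ₗ[A] V) (Y X : ℤ → Submodule A V) (p : ℤ) : ℤ → Submodule A V :=
  TR.mix Y X (cb d Y X p) p

/-- `Y` below `p`, cycles at `p`, `X` above. -/
def whi (d : V →ₗ[A] V) (Y X : ℤ → Submodule A V) (p : ℤ) : ℤ → Submodule A V :=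
  TR.mix Y X (cz d Y X p) p

variable {d : V →ₗ[A] V} {Y X : ℤ → Submodule A V}

theorem wlo_cstab (hd : ∀ x, d (d x) = 0) (hX : CStab d X) (hY : CStab d Y)
    (hXY : ∀ p, X p ≤ Y p) (p : ℤ) : CStab d (wlo d Y X p) :=
  TR.mix_cstab hX hY (fun x hx => Submodule.mem_sup_left ⟨x, hx, rfl⟩)
    fun _ hx => (TR.cb_le_cz hd hX hY hXY p hx).2

theorem whi_cstab (hd : ∀ x, d (d x) = 0) (hX : CStab d X) (hY : CStab d Y)
    (hXY : ∀ p, X p ≤ Y p) (p : ℤ) : CStab d (whi d Y X p) :=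
  TR.mix_cstab hX hY
    (fun x hx => TR.cb_le_cz hd hX hY hXY p (Submodule.mem_sup_left ⟨x, hx, rfl⟩))
    fun _ hx => hx.2

theorem le_wlo (hXY : ∀ p, X p ≤ Y p) (p q : ℤ) : X q ≤ wlo d Y X p q := by
  unfold wlo
  rcases lt_trichotomy q p with h | h | h
  · rw [TR.mix_lt h]; exact hXY q
  · subst h; rw [TR.mix_eq]; exact le_sup_right
  · rw [TR.mix_gt h]

theorem wlo_le_whi (hd : ∀ x, d (d x) = 0) (hX : CStab d X) (hY : CStab d Y)
    (hXY : ∀ p, X p ≤ Y p) (p q : ℤ) : wlo d Y X p q ≤ whi d Y X p q := by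
  unfold wlo whi
  rcases lt_trichotomy q p with h | h | h
  · rw [TR.mix_lt h, TR.mix_lt h]
  · subst h; rw [TR.mix_eq, TR.mix_eq]; exact TR.cb_le_cz hd hX hY hXY q
  · rw [TR.mix_gt h, TR.mix_gt h]

theorem whi_le_wlo (p q : ℤ) : whi d Y X p q ≤ wlo d Y X (p + 1) q := by
  unfold wlo whi
  rcases lt_trichotomy q p with h | h | h
  · rw [TR.mix_lt h, TR.mix_lt (by omega)]
  · subst h; rw [TR.mix_eq, TR.mix_lt (by omega)]; exact inf_le_left
  · rw [TR.mix_gt h]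
    by_cases h' : q = p + 1
    · subst h'; rw [TR.mix_eq]; exact le_sup_right
    · rw [TR.mix_gt (by omega)]

theorem wlo_le (hY : CStab d Y) (hXY : ∀ p, X p ≤ Y p) (p q : ℤ) : wlo d Y X p q ≤ Y q := by
  unfold wlo
  rcases lt_trichotomy q p with h | h | h
  · rw [TR.mix_lt h]
  · subst h; rw [TR.mix_eq]
    refine sup_le ?_ (hXY q)
    rintro _ ⟨y, hy, rfl⟩
    have := hY _ _ hy
    rwa [sub_add_cancel] at this
  · rw [TR.mix_gt h]; exact hXY q

theorem wlo_bot {lo : ℤ} (hX : CStab d X) (hXY : ∀ p, X p ≤ Y p)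
    (hlo : ∀ p, p < lo → Y p ≤ X p) : wlo d Y X lo = X := by
  funext q
  unfold wlo
  rcases lt_trichotomy q lo with h | h | h
  · rw [TR.mix_lt h]; exact le_antisymm (hlo q h) (hXY q)
  · subst h
    rw [TR.mix_eq]
    refine le_antisymm (sup_le ?_ le_rfl) le_sup_right
    rintro _ ⟨y, hy, rfl⟩
    have := hX _ _ (hlo (q - 1) (by omega) hy)
    rwa [sub_add_cancel] at this
  · rw [TR.mix_gt h]

theorem wlo_top {hi : ℤ} (hX : CStab d X) (hY : CStab d Y) (hXY : ∀ p, X p ≤ Y p)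
    (hhi : ∀ p, hi ≤ p → Y p ≤ X p) : wlo d Y X hi = Y := by
  have := hX
  funext q
  refine le_antisymm (wlo_le hY hXY hi q) ?_
  unfold wlo
  rcases lt_trichotomy q hi with h | h | h
  · rw [TR.mix_lt h]
  · subst h; rw [TR.mix_eq]; exact (hhi q le_rfl).trans le_sup_right
  · rw [TR.mix_gt h]; exact hhi q h.le

end W

section

variable {A : Type*} [CommRing A] {V : Type*} [AddCommGroup V] [Module A V]
  (S : Type*) [CommRing S] [Algebra A S] {ι : Type*} [Fintype ι]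

theorem bcf_mix_lt {Y X : ℤ → Submodule A V} {Z : Submodule A V} {p q : ℤ} (h : q < p) :
    bcf S (TR.mix Y X Z p) q = bcf S Y q := by
  unfold bcf; rw [TR.mix_lt h]

theorem bcf_mix_eq {Y X : ℤ → Submodule A V} {Z : Submodule A V} {p : ℤ} :
    bcf S (TR.mix Y X Z p) p = Z.baseChange S := by
  unfold bcf; rw [TR.mix_eq]

theorem bcf_mix_gt {Y X : ℤ → Submodule A V} {Z : Submodule A V} {p q : ℤ} (h : p < q) :
    bcf S (TR.mix Y X Z p) q = bcf S X q := by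
  unfold bcf; rw [TR.mix_gt h]

theorem bcf_mix (Y X : ℤ → Submodule A V) (Z : Submodule A V) (p : ℤ) :
    bcf S (TR.mix Y X Z p) = TR.mix (bcf S Y) (bcf S X) (Z.baseChange S) p := by
  funext q
  rcases lt_trichotomy q p with h | h | h
  · rw [bcf_mix_lt S h, TR.mix_lt h]
  · subst h; rw [bcf_mix_eq, TR.mix_eq]
  · rw [bcf_mix_gt S h, TR.mix_gt h]

/-- STEP 2. -/
theorem wg_acyclic [Module.Flat A S] (deg : ι → ℤ) (Q : Matrix ι ι S) (hQ : IsCx deg Q) (j : ℤ)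
    (d : V →ₗ[A] V) (Y X : ℤ → Submodule A V) (p δ : ℤ) :
    zz (tot deg Q (d.baseChange S)) (TG S deg Q j (wlo d Y X (p + 1)) (whi d Y X p))
        (lift deg (bcf S (whi d Y X p))) δ ≤
      bb (tot deg Q (d.baseChange S)) (TG S deg Q j (wlo d Y X (p + 1)) (whi d Y X p))
        (lift deg (bcf S (whi d Y X p))) δ := by
  rintro f hf
  obtain ⟨hf1, hf2⟩ := TR.mem_zz.1 hf
  rw [wg_mem_tg] at hf1
  obtain ⟨g1, g2, g3⟩ := hf1
  rw [mem_lift] at hf2
  set d' := d.baseChange S with hd'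
  have hw : ∀ a, ∃ w : S ⊗[A] V, deg a = p + δ + 1 → (w ∈ bcf S Y p ∧
      f a - ((deg a).negOnePow : ℤ) • d' w ∈ bcf S X (p + 1) ∧ (deg a ≤ j → w = 0)) := by
    intro a
    by_cases ha : deg a = p + δ + 1
    · by_cases hj : deg a ≤ j
      · refine ⟨0, fun _ => ⟨zero_mem _, ?_, fun _ => rfl⟩⟩
        have := g2 a hj
        rw [show deg a - δ = p + 1 by omega, whi, bcf_mix_gt S (by omega)] at this
        simpa using this
      · have h1 := g1 a
        rw [show deg a - δ = p + 1 by omega, wlo, bcf_mix_eq, ← cb_bcf] at h1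
        obtain ⟨_, ⟨y, hy, rfl⟩, x, hx, hxy⟩ := Submodule.mem_sup.1 h1
        rw [add_sub_cancel_right] at hy
        refine ⟨((deg a).negOnePow : ℤ) • y, fun _ => ⟨zsmul_mem hy _, ?_, fun h => absurd h hj⟩⟩
        rw [map_zsmul, TR.sgn_sgn, ← hxy, add_sub_cancel_left]
        exact hx
    · exact ⟨0, fun h => absurd h ha⟩
  choose w hw using hw
  classical
  set W : ι → S ⊗[A] V := fun a => if deg a = p + δ + 1 then w a else 0 with hW
  have hW1 : ∀ a, deg a = p + δ + 1 → W a = w a := fun a ha => if_pos ha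
  have hW0 : ∀ a, deg a ≠ p + δ + 1 → W a = 0 := fun a ha => if_neg ha
  -- the matrix part
  have hQ0 : ∀ a, deg a ≠ p + δ → ∑ b, Q a b • W b = 0 := by
    intro a ha
    have h0 : (∑ b, Q a b • W b) ∈ (⊥ : Submodule S (S ⊗[A] V)) := by
      refine wg_sum_mem S hQ fun b hb => ?_
      rw [Submodule.mem_bot]
      exact hW0 b (by omega)
    exact (Submodule.mem_bot S).1 h0
  have hQY : ∀ a, (∑ b, Q a b • W b) ∈ bcf S Y p := by
    intro a
    refine Submodule.sum_mem _ fun b _ => Submodule.smul_mem _ _ ?_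
    by_cases hb : deg b = p + δ + 1
    · rw [hW1 b hb]; exact (hw b hb).1
    · rw [hW0 b hb]; exact zero_mem _
  have hkey : ∀ a, deg a = p + δ →
      d' (∑ b, Q a b • W b) + ((deg a).negOnePow : ℤ) • (∑ b, Q a b • f b) ∈
        bcf S X (p + 1) := by
    intro a ha
    have e1 : d' (∑ b, Q a b • W b) + ((deg a).negOnePow : ℤ) • (∑ b, Q a b • f b) =
        ∑ b, Q a b • (d' (W b) - ((deg b).negOnePow : ℤ) • f b) := by
      rw [map_sum, Finset.smul_sum, ← Finset.sum_add_distrib]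
      refine Finset.sum_congr rfl fun b _ => ?_
      by_cases hb : Q a b = 0
      · simp [hb]
      · rw [hQ.deg_eq a b hb, negOnePow_succ', neg_smul, sub_neg_eq_add, smul_add, map_smul,
          smul_comm (Q a b)]
    rw [e1]
    refine wg_sum_mem S hQ fun b hb => ?_
    have hb' : deg b = p + δ + 1 := by omega
    have h1 := zsmul_mem (hw b hb').2.1 (-((deg b).negOnePow : ℤ))
    rw [hW1 b hb']
    have e2 : -((deg b).negOnePow : ℤ) • (f b - ((deg b).negOnePow : ℤ) • d' (w b)) =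
        d' (w b) - ((deg b).negOnePow : ℤ) • f b := by
      rw [neg_smul, smul_sub, TR.sgn_sgn, neg_sub]
    rwa [e2] at h1
  -- at the position `p`
  have hcz : ∀ u ∈ bcf S Y p, d' u ∈ bcf S X (p + 1) → u ∈ (cz d Y X p).baseChange S := by
    intro u h1 h2
    rw [← cz_bcf]
    exact ⟨h1, h2⟩
  refine TR.mem_bb.2 ⟨W, ?_, ?_⟩
  · rw [wg_mem_tg]
    refine ⟨fun a => ?_, fun a haj => ?_, fun a haj => ?_⟩
    · by_cases ha : deg a = p + δ + 1
      · rw [hW1 a ha, show deg a - (δ + 1) = p by omega, wlo, bcf_mix_lt S (by omega)]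
        exact (hw a ha).1
      · rw [hW0 a ha]; exact zero_mem _
    · by_cases ha : deg a = p + δ + 1
      · rw [hW1 a ha, (hw a ha).2.2 haj]; exact zero_mem _
      · rw [hW0 a ha]; exact zero_mem _
    · by_cases ha : deg a = p + δ
      · rw [show deg a - (δ + 1) + 1 = p by omega, whi, bcf_mix_eq]
        refine hcz _ (hQY a) ?_
        have h1 := g3 a haj
        rw [show deg a - δ + 1 = p + 1 by omega, whi, bcf_mix_gt S (by omega)] at h1
        have h2 := sub_mem (hkey a ha) (zsmul_mem h1 ((deg a).negOnePow : ℤ))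
        rwa [add_sub_cancel_right] at h2
      · rw [hQ0 a ha]; exact zero_mem _
  · rw [mem_lift]
    intro a
    rw [Pi.sub_apply, tot_apply]
    by_cases ha : deg a = p + δ + 1
    · rw [hQ0 a (by omega), zero_add, hW1 a ha, show deg a - δ = p + 1 by omega, whi,
        bcf_mix_gt S (by omega)]
      exact (hw a ha).2.1
    · rw [hW0 a ha, map_zero, smul_zero, add_zero]
      by_cases ha' : deg a = p + δ
      · rw [show deg a - δ = p by omega, whi, bcf_mix_eq]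
        have h1 := g1 a
        rw [show deg a - δ = p by omega, wlo, bcf_mix_lt S (by omega)] at h1
        refine hcz _ (sub_mem h1 (hQY a)) ?_
        have h2 := hf2 a
        rw [show deg a - (δ - 1) = p + 1 by omega, whi, bcf_mix_gt S (by omega), tot_apply] at h2
        have h4 := sub_mem (zsmul_mem h2 ((deg a).negOnePow : ℤ)) (hkey a ha')
        rw [smul_add, TR.sgn_sgn, add_comm (d' (∑ b, Q a b • W b)), add_sub_add_left_eq_sub,
          ← map_sub] at h4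
        exact h4
      · rw [hQ0 a ha', sub_zero]
        have h1 := g1 a
        rcases lt_or_gt_of_ne (show deg a - δ ≠ p by omega) with h | h
        · rw [wlo, bcf_mix_lt S (by omega)] at h1
          rw [whi, bcf_mix_lt S h]
          exact h1
        · rw [wlo, bcf_mix_gt S (by omega)] at h1
          rw [whi, bcf_mix_gt S h]
          exact h1

/-- the two families differ only at `p`. -/
theorem bcf_whi_ne (d : V →ₗ[A] V) (Y X : ℤ → Submodule A V) {p q : ℤ} (h : q ≠ p) :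
    bcf S (whi d Y X p) q = bcf S (wlo d Y X p) q := by
  unfold whi wlo
  rcases lt_or_gt_of_ne h with h | h
  · rw [bcf_mix_lt S h, bcf_mix_lt S h]
  · rw [bcf_mix_gt S h, bcf_mix_gt S h]

/-- STEP 3: relative cycles lie in the truncated family. -/
theorem wg_conc_mem (deg : ι → ℤ) (Q : Matrix ι ι S) (hQ : IsCx deg Q) (j : ℤ)
    (d : V →ₗ[A] V) (Y X : ℤ → Submodule A V) (p δ : ℤ) (hj : j + 1 ≤ δ + p)
    {f : ι → S ⊗[A] V} (hf : f ∈ lift deg (bcf S (whi d Y X p)) δ)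
    (hf2 : tot deg Q (d.baseChange S) f ∈ lift deg (bcf S (wlo d Y X p)) (δ - 1)) :
    f ∈ TG S deg Q j (whi d Y X p) (wlo d Y X p) δ := by
  rw [mem_lift] at hf hf2
  rw [wg_mem_tg]
  refine ⟨hf, fun a ha => ?_, fun a ha => ?_⟩
  · rw [← bcf_whi_ne S d Y X (show deg a - δ ≠ p by omega)]
    exact hf a
  · by_cases hq : deg a - δ + 1 = p
    · have h1 := hf2 a
      rw [show deg a - (δ - 1) = deg a - δ + 1 by ring, tot_apply] at h1
      have h2 := hf a
      have h3 : d.baseChange S (f a) ∈ bcf S (wlo d Y X p) (deg a - δ + 1) := by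
        rw [whi, bcf_mix_lt S (by omega)] at h2
        rw [hq, wlo, bcf_mix_eq, ← cb_bcf]
        refine Submodule.mem_sup_left ⟨f a, ?_, rfl⟩
        rwa [show p - 1 = deg a - δ by omega]
      have h4 := sub_mem h1 (zsmul_mem h3 ((deg a).negOnePow : ℤ))
      rwa [add_sub_cancel_right] at h4
    · rw [← bcf_whi_ne S d Y X hq]
      refine wg_sum_mem S hQ fun b hb => ?_
      have := hf b
      rwa [show deg b - δ = deg a - δ + 1 by omega] at this

theorem wg_conc_high (deg : ι → ℤ) (Q : Matrix ι ι S) (hQ : IsCx deg Q) (j : ℤ)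
    (d : V →ₗ[A] V) (Y X : ℤ → Submodule A V) (p δ : ℤ) (hj : j + 2 ≤ δ + p) :
    TG S deg Q j (whi d Y X p) (wlo d Y X p) δ = lift deg (bcf S (whi d Y X p)) δ := by
  ext f
  rw [wg_mem_tg, mem_lift]
  refine ⟨fun h => h.1, fun hf => ⟨hf, fun a ha => ?_, fun a ha => ?_⟩⟩
  · rw [← bcf_whi_ne S d Y X (show deg a - δ ≠ p by omega)]
    exact hf a
  · rw [← bcf_whi_ne S d Y X (show deg a - δ + 1 ≠ p by omega)]
    refine wg_sum_mem S hQ fun b hb => ?_
    have := hf b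
    rwa [show deg b - δ = deg a - δ + 1 by omega] at this

theorem wg_conc_low (deg : ι → ℤ) (Q : Matrix ι ι S) (hQ : IsCx deg Q) (j : ℤ)
    (d : V →ₗ[A] V) (Y X : ℤ → Submodule A V) {p : ℤ} (hle : ∀ q, wlo d Y X p q ≤ whi d Y X p q)
    (δ : ℤ) (hj : δ + p ≤ j) :
    TG S deg Q j (whi d Y X p) (wlo d Y X p) δ = lift deg (bcf S (wlo d Y X p)) δ := by
  ext f
  rw [wg_mem_tg, mem_lift]
  constructor
  · rintro ⟨h1, h2, _⟩ a
    by_cases hq : deg a - δ = p
    · exact h2 a (by omega)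
    · rw [← bcf_whi_ne S d Y X hq]
      exact h1 a
  · intro hf
    refine ⟨fun a => wg_bcf_mono S hle _ (hf a), fun a _ => hf a, fun a _ => ?_⟩
    refine wg_sum_mem S hQ fun b hb => ?_
    have := hf b
    rwa [show deg b - δ = deg a - δ + 1 by omega] at this

/-- STEP 3, lower piece. -/
theorem wg_conc_lower (deg : ι → ℤ) (Q : Matrix ι ι S) (hQ : IsCx deg Q) (j : ℤ)
    (d : V →ₗ[A] V) (Y X : ℤ → Submodule A V) (p : ℤ)
    (hle : ∀ q, wlo d Y X p q ≤ whi d Y X p q) (δ : ℤ) :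
    hh (tot deg Q (d.baseChange S)) (TG S deg Q j (whi d Y X p) (wlo d Y X p))
        (lift deg (bcf S (wlo d Y X p))) δ =
      if j + 1 ≤ δ + p then hh (tot deg Q (d.baseChange S)) (lift deg (bcf S (whi d Y X p)))
        (lift deg (bcf S (wlo d Y X p))) δ else 0 := by
  split_ifs with hj
  · unfold hh
    congr 1
    · unfold bb
      rw [wg_conc_high S deg Q hQ j d Y X p (δ + 1) (by omega)]
    · ext f
      rw [TR.mem_zz, TR.mem_zz]
      refine ⟨fun h => ⟨(wg_mem_tg S).1 h.1 |>.1 |> (mem_lift deg _ δ f).2, h.2⟩,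
        fun h => ⟨wg_conc_mem S deg Q hQ j d Y X p δ hj h.1 h.2, h.2⟩⟩
  · unfold hh
    rw [rl_eq_zero_iff]
    intro f hf
    have h1 := (TR.mem_zz.1 hf).1
    rw [wg_conc_low S deg Q hQ j d Y X hle δ (by omega)] at h1
    exact Submodule.mem_sup_right h1

/-- STEP 3, upper piece. -/
theorem wg_conc_upper (deg : ι → ℤ) (Q : Matrix ι ι S) (hQ : IsCx deg Q) (j : ℤ)
    (d : V →ₗ[A] V) (Y X : ℤ → Submodule A V) (p : ℤ)
    (hle : ∀ q, wlo d Y X p q ≤ whi d Y X p q) (δ : ℤ) :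
    hh (tot deg Q (d.baseChange S)) (lift deg (bcf S (whi d Y X p)))
        (TG S deg Q j (whi d Y X p) (wlo d Y X p)) δ =
      if δ + p ≤ j then hh (tot deg Q (d.baseChange S)) (lift deg (bcf S (whi d Y X p)))
        (lift deg (bcf S (wlo d Y X p))) δ else 0 := by
  split_ifs with hj
  · unfold hh zz bb
    rw [wg_conc_low S deg Q hQ j d Y X hle δ hj,
      wg_conc_low S deg Q hQ j d Y X hle (δ - 1) (by omega)]
  · unfold hh
    rw [rl_eq_zero_iff]
    intro f hf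
    obtain ⟨h1, h2⟩ := TR.mem_zz.1 hf
    refine Submodule.mem_sup_right ?_
    by_cases hj' : δ + p = j + 1
    · rw [wg_conc_low S deg Q hQ j d Y X hle (δ - 1) (by omega)] at h2
      exact wg_conc_mem S deg Q hQ j d Y X p δ (by omega) h1 h2
    · rw [wg_conc_high S deg Q hQ j d Y X p δ (by omega)]
      exact h1

/-- STEP 3: the concentrated piece. -/
theorem wg_conc [IsLocalRing A] [Module.Flat A S] (deg : ι → ℤ) (Q : Matrix ι ι S)
    (hQ : IsCx deg Q) (d : V →ₗ[A] V) (hd : ∀ x, d (d x) = 0)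
    (Y X : ℤ → Submodule A V) (hX : CStab d X) (hY : CStab d Y) (hXY : ∀ p, X p ≤ Y p)
    (hm : ∀ p, maximalIdeal A • Y p ≤ X p) (p : ℤ) (w : ℕ) (hw : hc d Y X p = w)
    (t : ℤ → ℕ) (ht : ∀ i, kh deg Q (S ⧸ (maximalIdeal A).map (algebraMap A S)) i = t i)
    (δ : ℤ) :
    hh (tot deg Q (d.baseChange S)) (lift deg (bcf S (whi d Y X p)))
        (lift deg (bcf S (wlo d Y X p))) δ = ((w * t (δ + p) : ℕ) : ℕ∞) := by
  have hcc := TR.cb_le_cz hd hX hY hXY p
  unfold whi wlo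
  rw [bcf_mix, bcf_mix, TR.hh_mix deg Q hQ (d.baseChange S) (bcf S Y) (bcf S X) _ _ p
    (wg_cstab_bcf S d X hX) (wg_cstab_bcf S d Y hY) (baseChange_mono S hcc),
    khs_baseChange S deg Q hQ _ _ hcc _ w hw, ht]
  · push_cast
    rfl
  · exact (Submodule.smul_mono le_rfl inf_le_left).trans ((hm p).trans le_sup_right)
  · intro x hx
    rw [← cb_bcf]
    exact Submodule.mem_sup_left ⟨x, hx, rfl⟩
  · intro x hx
    rw [← cz_bcf] at hx
    exact hx.2

end

section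

variable {A : Type*} [CommRing A] [IsLocalRing A] {V : Type*} [AddCommGroup V] [Module A V]
  (S : Type*) [CommRing S] [Algebra A S] [Module.Flat A S] {ι : Type*} [Fintype ι]

/-- one step of the lower chain. -/
theorem wg_piece_lower (deg : ι → ℤ) (Q : Matrix ι ι S) (hQ : IsCx deg Q) (j : ℤ)
    (d : V →ₗ[A] V) (hd : ∀ x, d (d x) = 0)
    (Y X : ℤ → Submodule A V) (hX : CStab d X) (hY : CStab d Y) (hXY : ∀ p, X p ≤ Y p)
    (hm : ∀ p, maximalIdeal A • Y p ≤ X p) (p : ℤ) (w : ℕ) (hw : hc d Y X p = w)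
    (t : ℤ → ℕ) (ht : ∀ i, kh deg Q (S ⧸ (maximalIdeal A).map (algebraMap A S)) i = t i)
    (δ : ℤ) :
    hh (tot deg Q (d.baseChange S)) (TG S deg Q j (wlo d Y X (p + 1)) X)
        (TG S deg Q j (wlo d Y X p) X) δ =
      ((if j + 1 ≤ δ + p then w * t (δ + p) else 0 : ℕ) : ℕ∞) := by
  have hdd := tot_tot deg Q hQ (d.baseChange S) (fun x => by
    rw [← LinearMap.comp_apply, ← LinearMap.baseChange_comp,
      show d ∘ₗ d = 0 from LinearMap.ext hd]; simp)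
  have s1 := wlo_cstab hd hX hY hXY p
  have s2 := whi_cstab hd hX hY hXY p
  have s3 := wlo_cstab hd hX hY hXY (p + 1)
  have l1 := le_wlo (d := d) hXY p
  have l2 := wlo_le_whi hd hX hY hXY p
  have l3 := whi_le_wlo (d := d) (Y := Y) (X := X) p
  have l4 := wlo_le (d := d) hY hXY (p + 1)
  have m3 : ∀ q, maximalIdeal A • wlo d Y X (p + 1) q ≤ X q := fun q =>
    (Submodule.smul_mono le_rfl (l4 q)).trans (hm q)
  have m2 : ∀ q, maximalIdeal A • whi d Y X p q ≤ X q := fun q =>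
    (Submodule.smul_mono le_rfl (l3 q)).trans (m3 q)
  have z : ∀ δ, hh (tot deg Q (d.baseChange S)) (TG S deg Q j (wlo d Y X (p + 1)) X)
        (TG S deg Q j (whi d Y X p) X) δ = 0 := by
    intro δ
    rw [wg_step_lower S deg Q hQ j d X _ _ hX s2 s3 (fun q => (l1 q).trans (l2 q)) l3 m3 δ]
    unfold hh
    rw [rl_eq_zero_iff]
    exact wg_acyclic S deg Q hQ j d Y X p δ
  have mono : ∀ {P R : ℤ → Submodule A V}, (∀ q, P q ≤ R q) → ∀ δ,
      TG S deg Q j P X δ ≤ TG S deg Q j R X δ := by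
    intro P R h δ f hf
    rw [wg_mem_tg] at hf ⊢
    exact ⟨fun a => wg_bcf_mono S h _ (hf.1 a), hf.2⟩
  rw [TR.hh_upper hdd (mono l2) (mono l3) (z δ) (z (δ + 1)),
    wg_step_lower S deg Q hQ j d X _ _ hX s1 s2 l1 l2 m2 δ,
    wg_conc_lower S deg Q hQ j d Y X p l2 δ, wg_conc S deg Q hQ d hd Y X hX hY hXY hm p w hw t ht δ]
  split_ifs <;> simp

/-- one step of the upper chain. -/
theorem wg_piece_upper (deg : ι → ℤ) (Q : Matrix ι ι S) (hQ : IsCx deg Q)
    (hdeg : ∀ a, 0 ≤ deg a) (j : ℤ) (d : V →ₗ[A] V) (hd : ∀ x, d (d x) = 0)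
    (Y X : ℤ → Submodule A V) (hX : CStab d X) (hY : CStab d Y) (hXY : ∀ p, X p ≤ Y p)
    (hm : ∀ p, maximalIdeal A • Y p ≤ X p) (p : ℤ) (w : ℕ) (hw : hc d Y X p = w)
    (t : ℤ → ℕ) (ht : ∀ i, kh deg Q (S ⧸ (maximalIdeal A).map (algebraMap A S)) i = t i)
    (δ : ℤ) :
    hh (tot deg Q (d.baseChange S)) (TG S deg Q j Y (wlo d Y X (p + 1)))
        (TG S deg Q j Y (wlo d Y X p)) δ =
      ((if δ + p ≤ j then w * t (δ + p) else 0 : ℕ) : ℕ∞) := by
  have hdd := tot_tot deg Q hQ (d.baseChange S) (fun x => by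
    rw [← LinearMap.comp_apply, ← LinearMap.baseChange_comp,
      show d ∘ₗ d = 0 from LinearMap.ext hd]; simp)
  have s1 := wlo_cstab hd hX hY hXY p
  have s2 := whi_cstab hd hX hY hXY p
  have s3 := wlo_cstab hd hX hY hXY (p + 1)
  have l1 := le_wlo (d := d) hXY p
  have l2 := wlo_le_whi hd hX hY hXY p
  have l3 := whi_le_wlo (d := d) (Y := Y) (X := X) p
  have l4 := wlo_le (d := d) hY hXY (p + 1)
  have m2 : ∀ q, maximalIdeal A • Y q ≤ whi d Y X p q := fun q =>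
    (hm q).trans ((l1 q).trans (l2 q))
  have m1 : ∀ q, maximalIdeal A • Y q ≤ wlo d Y X p q := fun q => (hm q).trans (l1 q)
  have z : ∀ δ, hh (tot deg Q (d.baseChange S)) (TG S deg Q j Y (wlo d Y X (p + 1)))
        (TG S deg Q j Y (whi d Y X p)) δ = 0 := by
    intro δ
    rw [wg_step_upper S deg Q hQ j d Y _ _ hY s2 s3 l3 l4 m2 δ]
    have h0 : ∀ (i δ : ℤ), hh (tot deg Q (d.baseChange S))
        (TG S deg Q i (wlo d Y X (p + 1)) (whi d Y X p))
        (lift deg (bcf S (whi d Y X p))) δ = 0 := by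
      intro i δ
      unfold hh
      rw [rl_eq_zero_iff]
      exact wg_acyclic S deg Q hQ i d Y X p δ
    have h1 := hh_quot_le (tot deg Q (d.baseChange S)) hdd (lift deg (bcf S (whi d Y X p)))
      (TG S deg Q j (wlo d Y X (p + 1)) (whi d Y X p)) (lift deg (bcf S (wlo d Y X (p + 1))))
      (lift_stab deg Q hQ _ _ (wg_cstab_bcf S d _ s2))
      (tg_stab S deg Q hQ j d _ _ s2 s3 l3)
      (lift_stab deg Q hQ _ _ (wg_cstab_bcf S d _ s3))
      (lift_le_tg S deg Q hQ j _ _ l3) (tg_le_lift S deg Q j _ _) δ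
    rw [h0 j (δ - 1), add_zero, ← wg_tg_neg S hdeg _ (whi d Y X p), h0 (-1) δ] at h1
    rw [wg_tg_neg S hdeg] at h1
    exact le_antisymm h1 bot_le
  have mono : ∀ {P R : ℤ → Submodule A V}, (∀ q, P q ≤ R q) → ∀ δ,
      TG S deg Q j Y P δ ≤ TG S deg Q j Y R δ := by
    intro P R h δ f hf
    rw [wg_mem_tg] at hf ⊢
    exact ⟨hf.1, fun a ha => wg_bcf_mono S h _ (hf.2.1 a ha),
      fun a ha => wg_bcf_mono S h _ (hf.2.2 a ha)⟩
  rw [TR.hh_upper hdd (mono l2) (mono l3) (z δ) (z (δ + 1)),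
    wg_step_upper S deg Q hQ j d Y _ _ hY s1 s2 l2 (fun q => (l3 q).trans (l4 q)) m1 δ,
    wg_conc_upper S deg Q hQ j d Y X p l2 δ, wg_conc S deg Q hQ d hd Y X hX hY hXY hm p w hw t ht δ]
  split_ifs <;> simp

/-- the lower chain, bound. -/
theorem wg_chain_lower (deg : ι → ℤ) (Q : Matrix ι ι S) (hQ : IsCx deg Q) (j : ℤ)
    (d : V →ₗ[A] V) (hd : ∀ x, d (d x) = 0)
    (Y X : ℤ → Submodule A V) (hX : CStab d X) (hY : CStab d Y) (hXY : ∀ p, X p ≤ Y p)
    (c : ℕ) (hlo : ∀ p, p < -(c : ℤ) → Y p ≤ X p)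
    (hm : ∀ p, maximalIdeal A • Y p ≤ X p) (h : ℤ → ℕ) (hh' : ∀ p, hc d Y X p = h p)
    (t : ℤ → ℕ) (ht : ∀ i, kh deg Q (S ⧸ (maximalIdeal A).map (algebraMap A S)) i = t i)
    (k : ℕ) (δ : ℤ) :
    hh (tot deg Q (d.baseChange S)) (TG S deg Q j (wlo d Y X (-(c : ℤ) + k)) X)
        (lift deg (bcf S X)) δ ≤
      ((∑ p ∈ Finset.Ico (-(c : ℤ)) (-(c : ℤ) + k),
        if j + 1 ≤ δ + p then h p * t (δ + p) else 0 : ℕ) : ℕ∞) := by
  have hdd := tot_tot deg Q hQ (d.baseChange S) (fun x => by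
    rw [← LinearMap.comp_apply, ← LinearMap.baseChange_comp,
      show d ∘ₗ d = 0 from LinearMap.ext hd]; simp)
  induction k with
  | zero =>
    rw [Nat.cast_zero, add_zero, wlo_bot hX hXY hlo, wg_tg_self S hQ]
    have h0 : hh (tot deg Q (d.baseChange S)) (lift deg (bcf S X)) (lift deg (bcf S X)) δ = 0 := by
      unfold hh
      rw [rl_eq_zero_iff]
      intro f hf
      exact Submodule.mem_sup_right (TR.mem_zz.1 hf).1
    rw [h0]
    exact bot_le
  | succ k ih =>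
    have e1 : Finset.Ico (-(c : ℤ)) (-(c : ℤ) + (k + 1 : ℕ)) =
        insert (-(c : ℤ) + k) (Finset.Ico (-(c : ℤ)) (-(c : ℤ) + k)) := by
      ext x
      simp only [Finset.mem_Ico, Finset.mem_insert]
      push_cast
      omega
    have h1 := hh_le_add (tot deg Q (d.baseChange S)) hdd (lift deg (bcf S X))
      (TG S deg Q j (wlo d Y X (-(c : ℤ) + k)) X)
      (TG S deg Q j (wlo d Y X (-(c : ℤ) + k + 1)) X)
      (lift_stab deg Q hQ _ _ (wg_cstab_bcf S d _ hX))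
      (tg_stab S deg Q hQ j d _ _ hX (wlo_cstab hd hX hY hXY _) (le_wlo hXY _))
      (tg_stab S deg Q hQ j d _ _ hX (wlo_cstab hd hX hY hXY _) (le_wlo hXY _))
      (lift_le_tg S deg Q hQ j _ _ (le_wlo hXY _))
      (fun δ f hf => by
        rw [wg_mem_tg] at hf ⊢
        exact ⟨fun a => wg_bcf_mono S (fun q => (wlo_le_whi hd hX hY hXY _ q).trans
          (whi_le_wlo _ q)) _ (hf.1 a), hf.2⟩) δ
    have e2 : ((∑ p ∈ Finset.Ico (-(c : ℤ)) (-(c : ℤ) + (k + 1 : ℕ)),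
        if j + 1 ≤ δ + p then h p * t (δ + p) else 0 : ℕ) : ℕ∞) =
        ((if j + 1 ≤ δ + (-(c : ℤ) + k) then h (-(c : ℤ) + k) * t (δ + (-(c : ℤ) + k)) else 0 : ℕ) :
          ℕ∞) + ((∑ p ∈ Finset.Ico (-(c : ℤ)) (-(c : ℤ) + k),
            if j + 1 ≤ δ + p then h p * t (δ + p) else 0 : ℕ) : ℕ∞) := by
      rw [e1, Finset.sum_insert (by simp), ← Nat.cast_add]
    rw [wg_piece_lower S deg Q hQ j d hd Y X hX hY hXY hm _ _ (hh' _) t ht δ] at h1
    rw [e2, show (-(c : ℤ) + ((k + 1 : ℕ) : ℤ)) = -(c : ℤ) + k + 1 by push_cast; ring, add_comm]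
    rw [add_comm] at h1
    exact h1.trans (by gcongr)

/-- the upper chain, bound. -/
theorem wg_chain_upper (deg : ι → ℤ) (Q : Matrix ι ι S) (hQ : IsCx deg Q)
    (hdeg : ∀ a, 0 ≤ deg a) (j : ℤ) (d : V →ₗ[A] V) (hd : ∀ x, d (d x) = 0)
    (Y X : ℤ → Submodule A V) (hX : CStab d X) (hY : CStab d Y) (hXY : ∀ p, X p ≤ Y p)
    (c : ℕ) (hlo : ∀ p, p < -(c : ℤ) → Y p ≤ X p)
    (hm : ∀ p, maximalIdeal A • Y p ≤ X p) (h : ℤ → ℕ) (hh' : ∀ p, hc d Y X p = h p)
    (t : ℤ → ℕ) (ht : ∀ i, kh deg Q (S ⧸ (maximalIdeal A).map (algebraMap A S)) i = t i)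
    (k : ℕ) (δ : ℤ) :
    hh (tot deg Q (d.baseChange S)) (TG S deg Q j Y (wlo d Y X (-(c : ℤ) + k)))
        (TG S deg Q j Y X) δ ≤
      ((∑ p ∈ Finset.Ico (-(c : ℤ)) (-(c : ℤ) + k),
        if δ + p ≤ j then h p * t (δ + p) else 0 : ℕ) : ℕ∞) := by
  have hdd := tot_tot deg Q hQ (d.baseChange S) (fun x => by
    rw [← LinearMap.comp_apply, ← LinearMap.baseChange_comp,
      show d ∘ₗ d = 0 from LinearMap.ext hd]; simp)
  induction k with
  | zero =>
    rw [Nat.cast_zero, add_zero, wlo_bot hX hXY hlo]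
    have h0 : hh (tot deg Q (d.baseChange S)) (TG S deg Q j Y X) (TG S deg Q j Y X) δ = 0 := by
      unfold hh
      rw [rl_eq_zero_iff]
      intro f hf
      exact Submodule.mem_sup_right (TR.mem_zz.1 hf).1
    rw [h0]
    exact bot_le
  | succ k ih =>
    have e1 : Finset.Ico (-(c : ℤ)) (-(c : ℤ) + (k + 1 : ℕ)) =
        insert (-(c : ℤ) + k) (Finset.Ico (-(c : ℤ)) (-(c : ℤ) + k)) := by
      ext x
      simp only [Finset.mem_Ico, Finset.mem_insert]
      push_cast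
      omega
    have mono : ∀ {P R : ℤ → Submodule A V}, (∀ q, P q ≤ R q) → ∀ δ,
        TG S deg Q j Y P δ ≤ TG S deg Q j Y R δ := by
      intro P R h δ f hf
      rw [wg_mem_tg] at hf ⊢
      exact ⟨hf.1, fun a ha => wg_bcf_mono S h _ (hf.2.1 a ha),
        fun a ha => wg_bcf_mono S h _ (hf.2.2 a ha)⟩
    have h1 := hh_le_add (tot deg Q (d.baseChange S)) hdd (TG S deg Q j Y X)
      (TG S deg Q j Y (wlo d Y X (-(c : ℤ) + k)))
      (TG S deg Q j Y (wlo d Y X (-(c : ℤ) + k + 1)))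
      (tg_stab S deg Q hQ j d _ _ hX hY hXY)
      (tg_stab S deg Q hQ j d _ _ (wlo_cstab hd hX hY hXY _) hY (wlo_le hY hXY _))
      (tg_stab S deg Q hQ j d _ _ (wlo_cstab hd hX hY hXY _) hY (wlo_le hY hXY _))
      (mono (le_wlo hXY _))
      (mono fun q => (wlo_le_whi hd hX hY hXY _ q).trans (whi_le_wlo _ q)) δ
    have e2 : ((∑ p ∈ Finset.Ico (-(c : ℤ)) (-(c : ℤ) + (k + 1 : ℕ)),
        if δ + p ≤ j then h p * t (δ + p) else 0 : ℕ) : ℕ∞) =
        ((if δ + (-(c : ℤ) + k) ≤ j then h (-(c : ℤ) + k) * t (δ + (-(c : ℤ) + k)) else 0 : ℕ) :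
          ℕ∞) + ((∑ p ∈ Finset.Ico (-(c : ℤ)) (-(c : ℤ) + k),
            if δ + p ≤ j then h p * t (δ + p) else 0 : ℕ) : ℕ∞) := by
      rw [e1, Finset.sum_insert (by simp), ← Nat.cast_add]
    rw [wg_piece_upper S deg Q hQ hdeg j d hd Y X hX hY hXY hm _ _ (hh' _) t ht δ] at h1
    rw [e2, show (-(c : ℤ) + ((k + 1 : ℕ) : ℤ)) = -(c : ℤ) + k + 1 by push_cast; ring, add_comm]
    rw [add_comm] at h1
    exact h1.trans (by gcongr)

/-- TASK GEN-5: homology of the truncated window. -/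
theorem tg_lower (deg : ι → ℤ) (Q : Matrix ι ι S) (hQ : IsCx deg Q) (n : ℕ)
    (hdeg : ∀ a, 0 ≤ deg a ∧ deg a ≤ n) (d : V →ₗ[A] V) (hd : ∀ x, d (d x) = 0)
    (Y X : ℤ → Submodule A V) (hX : CStab d X) (hY : CStab d Y) (hXY : ∀ p, X p ≤ Y p)
    (c : ℕ) (hout : ∀ p, (p < -(c : ℤ) ∨ (n : ℤ) ≤ p) → Y p ≤ X p)
    (hm : ∀ p, maximalIdeal A • Y p ≤ X p) (h : ℤ → ℕ) (hh' : ∀ p, hc d Y X p = h p)
    (t : ℤ → ℕ) (ht : ∀ i, kh deg Q (S ⧸ (maximalIdeal A).map (algebraMap A S)) i = t i)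
    (j : ℤ) (hj : -1 ≤ j) (δ : ℤ) :
    hh (tot deg Q (d.baseChange S)) (TG S deg Q j Y X) (lift deg (bcf S X)) δ ≤
      ((∑ p ∈ Finset.Ico (-(c : ℤ)) n, if j + 1 ≤ δ + p then h p * t (δ + p) else 0 : ℕ) :
        ℕ∞) := by
  have h1 := wg_chain_lower S deg Q hQ j d hd Y X hX hY hXY c (fun p hp => hout p (Or.inl hp)) hm h
    hh' t ht (n + c) δ
  rw [show (-(c : ℤ) + ((n + c : ℕ) : ℤ)) = n by push_cast; ring,
    wlo_top hX hY hXY (fun p hp => hout p (Or.inr hp))] at h1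
  exact h1

/-- `kh` vanishes in degrees not taken by `deg`. -/
theorem wg_kh_zero {S : Type*} [CommRing S] {ι : Type*} [Fintype ι] (deg : ι → ℤ)
    (Q : Matrix ι ι S) (M : Type*) [AddCommGroup M] [Module S M]
    (i : ℤ) (hi : ∀ a, deg a ≠ i) : kh deg Q M i = 0 := by
  unfold kh khs hh
  rw [rl_eq_zero_iff]
  intro f hf
  have h1 := TR.mem_lift_conc.1 (TR.mem_zz.1 hf).1
  have h0 : f = 0 := funext fun a => (h1 a).2 (hi a)
  rw [h0]
  exact zero_mem _

/-- the lower chain, Euler characteristic. -/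
theorem wg_chain_xi (deg : ι → ℤ) (Q : Matrix ι ι S) (hQ : IsCx deg Q) (n : ℕ)
    (hdeg : ∀ a, 0 ≤ deg a ∧ deg a ≤ n) (j : ℤ) (hj : -1 ≤ j)
    (d : V →ₗ[A] V) (hd : ∀ x, d (d x) = 0)
    (Y X : ℤ → Submodule A V) (hX : CStab d X) (hY : CStab d Y) (hXY : ∀ p, X p ≤ Y p)
    (c : ℕ) (hlo : ∀ p, p < -(c : ℤ) → Y p ≤ X p)
    (hm : ∀ p, maximalIdeal A • Y p ≤ X p) (h : ℤ → ℕ) (hh' : ∀ p, hc d Y X p = h p)
    (t : ℤ → ℕ) (ht : ∀ i, kh deg Q (S ⧸ (maximalIdeal A).map (algebraMap A S)) i = t i)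
    (k : ℕ) (hk : k ≤ n + c) :
    xi (n + c) (hh (tot deg Q (d.baseChange S)) (TG S deg Q j (wlo d Y X (-(c : ℤ) + k)) X)
        (lift deg (bcf S X))) =
      ∑ p ∈ Finset.Ico (-(c : ℤ)) (-(c : ℤ) + k),
        ∑ δ ∈ Finset.Icc (-((n + c : ℕ) : ℤ)) ((n + c : ℕ) : ℤ), (δ.negOnePow : ℤ) *
          ((if j + 1 ≤ δ + p then h p * t (δ + p) else 0 : ℕ) : ℤ) := by
  have hdd := tot_tot deg Q hQ (d.baseChange S) (fun x => by
    rw [← LinearMap.comp_apply, ← LinearMap.baseChange_comp,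
      show d ∘ₗ d = 0 from LinearMap.ext hd]; simp)
  have t0 : ∀ i : ℤ, (n : ℤ) < i → t i = 0 := fun i hi => by
    have h1 := ht i
    rw [wg_kh_zero deg Q _ i (fun a ha => by have := (hdeg a).2; omega)] at h1
    exact_mod_cast h1.symm
  have z0 : ∀ δ p : ℤ, (δ < -((n + c : ℕ) : ℤ) ∨ ((n + c : ℕ) : ℤ) < δ) → -(c : ℤ) ≤ p →
      p < n → (if j + 1 ≤ δ + p then h p * t (δ + p) else 0) = 0 := fun δ p h1 h2 h3 => by
    rcases h1 with h1 | h1
    · rw [if_neg]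
      push_cast at h1
      omega
    · rw [t0 (δ + p) (by push_cast at h1; omega)]
      simp
  induction k with
  | zero =>
    rw [Nat.cast_zero, add_zero, wlo_bot hX hXY hlo, wg_tg_self S hQ]
    have h0 : ∀ δ, hh (tot deg Q (d.baseChange S)) (lift deg (bcf S X)) (lift deg (bcf S X)) δ =
        0 := by
      intro δ
      unfold hh
      rw [rl_eq_zero_iff]
      intro f hf
      exact Submodule.mem_sup_right (TR.mem_zz.1 hf).1
    unfold xi
    simp [h0]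
  | succ k ih =>
    have e1 : Finset.Ico (-(c : ℤ)) (-(c : ℤ) + (k + 1 : ℕ)) =
        insert (-(c : ℤ) + k) (Finset.Ico (-(c : ℤ)) (-(c : ℤ) + k)) := by
      ext x
      simp only [Finset.mem_Ico, Finset.mem_insert]
      push_cast
      omega
    have pc := wg_piece_lower S deg Q hQ j d hd Y X hX hY hXY hm (-(c : ℤ) + k) _ (hh' _) t ht
    have lc := wg_chain_lower S deg Q hQ j d hd Y X hX hY hXY c hlo hm h hh' t ht k
    have h1 := xi_add (n + c) (tot deg Q (d.baseChange S)) hdd (lift deg (bcf S X))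
      (TG S deg Q j (wlo d Y X (-(c : ℤ) + k)) X)
      (TG S deg Q j (wlo d Y X (-(c : ℤ) + k + 1)) X)
      (lift_stab deg Q hQ _ _ (wg_cstab_bcf S d _ hX))
      (tg_stab S deg Q hQ j d _ _ hX (wlo_cstab hd hX hY hXY _) (le_wlo hXY _))
      (tg_stab S deg Q hQ j d _ _ hX (wlo_cstab hd hX hY hXY _) (le_wlo hXY _))
      (lift_le_tg S deg Q hQ j _ _ (le_wlo hXY _))
      (fun δ f hf => by
        rw [wg_mem_tg] at hf ⊢
        exact ⟨fun a => wg_bcf_mono S (fun q => (wlo_le_whi hd hX hY hXY _ q).trans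
          (whi_le_wlo _ q)) _ (hf.1 a), hf.2⟩)
      (fun δ => by rw [pc δ]; exact ENat.natCast_ne_top _)
      (fun δ => ne_top_of_le_ne_top (ENat.natCast_ne_top _) (lc δ))
      (fun δ hδ => by
        constructor
        · rw [pc δ, z0 δ _ hδ (by omega) (by omega), Nat.cast_zero]
        · refine le_antisymm ((lc δ).trans ?_) bot_le
          rw [Finset.sum_eq_zero, Nat.cast_zero]
          intro p hp
          rw [Finset.mem_Ico] at hp
          exact z0 δ p hδ hp.1 (by omega))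
    rw [e1, Finset.sum_insert (by simp),
      show (-(c : ℤ) + ((k + 1 : ℕ) : ℤ)) = -(c : ℤ) + k + 1 by push_cast; ring, h1,
      ih (by omega)]
    congr 1
    unfold xi
    refine Finset.sum_congr rfl fun δ _ => ?_
    rw [pc δ, ENat.toNat_natCast]

/-- TASK GEN-5: Euler characteristic of the truncated window. -/
theorem tg_lower_xi (deg : ι → ℤ) (Q : Matrix ι ι S) (hQ : IsCx deg Q) (n : ℕ)
    (hdeg : ∀ a, 0 ≤ deg a ∧ deg a ≤ n) (d : V →ₗ[A] V) (hd : ∀ x, d (d x) = 0)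
    (Y X : ℤ → Submodule A V) (hX : CStab d X) (hY : CStab d Y) (hXY : ∀ p, X p ≤ Y p)
    (c : ℕ) (hout : ∀ p, (p < -(c : ℤ) ∨ (n : ℤ) ≤ p) → Y p ≤ X p)
    (hm : ∀ p, maximalIdeal A • Y p ≤ X p) (h : ℤ → ℕ) (hh' : ∀ p, hc d Y X p = h p)
    (t : ℤ → ℕ) (ht : ∀ i, kh deg Q (S ⧸ (maximalIdeal A).map (algebraMap A S)) i = t i)
    (j : ℤ) (hj : -1 ≤ j) :
    xi (n + c) (hh (tot deg Q (d.baseChange S)) (TG S deg Q j Y X) (lift deg (bcf S X))) =
      (∑ p ∈ Finset.Ico (-(c : ℤ)) n, (p.negOnePow : ℤ) * (h p : ℤ)) *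
        ∑ i ∈ Finset.Icc (j + 1) n, (i.negOnePow : ℤ) * (t i : ℤ) := by
  have t0 : ∀ i : ℤ, (n : ℤ) < i → t i = 0 := fun i hi => by
    have h1 := ht i
    rw [wg_kh_zero deg Q _ i (fun a ha => by have := (hdeg a).2; omega)] at h1
    exact_mod_cast h1.symm
  have h1 := wg_chain_xi S deg Q hQ n hdeg j hj d hd Y X hX hY hXY c
    (fun p hp => hout p (Or.inl hp)) hm h hh' t ht (n + c) le_rfl
  rw [show (-(c : ℤ) + ((n + c : ℕ) : ℤ)) = n by push_cast; ring,
    wlo_top hX hY hXY (fun p hp => hout p (Or.inr hp))] at h1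
  rw [h1, Finset.sum_mul]
  refine Finset.sum_congr rfl fun p hp => ?_
  rw [Finset.mem_Ico] at hp
  have e1 : ∑ δ ∈ Finset.Icc (-((n + c : ℕ) : ℤ)) ((n + c : ℕ) : ℤ), (δ.negOnePow : ℤ) *
      ((if j + 1 ≤ δ + p then h p * t (δ + p) else 0 : ℕ) : ℤ) =
      ∑ δ ∈ Finset.Icc (j + 1 - p) (n - p), (δ.negOnePow : ℤ) *
      ((if j + 1 ≤ δ + p then h p * t (δ + p) else 0 : ℕ) : ℤ) := by
    symm
    refine Finset.sum_subset ?_ ?_
    · intro x hx
      rw [Finset.mem_Icc] at hx ⊢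
      push_cast
      constructor <;> omega
    · intro x _ hx2
      rw [Finset.mem_Icc, not_and_or] at hx2
      rcases hx2 with hx2 | hx2
      · rw [if_neg (by omega)]
        simp
      · rw [t0 (x + p) (by omega)]
        simp
  rw [e1, Finset.mul_sum]
  refine Finset.sum_nbij' (fun δ => δ + p) (fun i => i - p) ?_ ?_ ?_ ?_ ?_
  · intro x hx
    rw [Finset.mem_Icc] at hx ⊢
    constructor <;> omega
  · intro x hx
    rw [Finset.mem_Icc] at hx ⊢
    constructor <;> omega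
  · intro x _
    simp
  · intro x _
    simp
  · intro x hx
    rw [Finset.mem_Icc] at hx
    rw [if_pos (by omega), Int.negOnePow_add, Units.val_mul, Nat.cast_mul]
    have hu : ((p.negOnePow : ℤˣ) : ℤ) * ((p.negOnePow : ℤˣ) : ℤ) = 1 := by
      rw [← Units.val_mul, Int.units_mul_self, Units.val_one]
    calc (x.negOnePow : ℤ) * ((h p : ℤ) * (t (x + p) : ℤ))
        = (((p.negOnePow : ℤˣ) : ℤ) * ((p.negOnePow : ℤˣ) : ℤ)) *
          ((x.negOnePow : ℤ) * ((h p : ℤ) * (t (x + p) : ℤ))) := by rw [hu, one_mul]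
      _ = _ := by ring

/-- TASK GEN-5: homology of the quotient by the truncated window. -/
theorem tg_upper (deg : ι → ℤ) (Q : Matrix ι ι S) (hQ : IsCx deg Q) (n : ℕ)
    (hdeg : ∀ a, 0 ≤ deg a ∧ deg a ≤ n) (d : V →ₗ[A] V) (hd : ∀ x, d (d x) = 0)
    (Y X : ℤ → Submodule A V) (hX : CStab d X) (hY : CStab d Y) (hXY : ∀ p, X p ≤ Y p)
    (c : ℕ) (hout : ∀ p, (p < -(c : ℤ) ∨ (n : ℤ) ≤ p) → Y p ≤ X p)
    (hm : ∀ p, maximalIdeal A • Y p ≤ X p) (h : ℤ → ℕ) (hh' : ∀ p, hc d Y X p = h p)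
    (t : ℤ → ℕ) (ht : ∀ i, kh deg Q (S ⧸ (maximalIdeal A).map (algebraMap A S)) i = t i)
    (j : ℤ) (hj : -1 ≤ j) (δ : ℤ) :
    hh (tot deg Q (d.baseChange S)) (lift deg (bcf S Y)) (TG S deg Q j Y X) δ ≤
      ((∑ p ∈ Finset.Ico (-(c : ℤ)) n, if δ + p ≤ j then h p * t (δ + p) else 0 : ℕ) :
        ℕ∞) := by
  have h1 := wg_chain_upper S deg Q hQ (fun a => (hdeg a).1) j d hd Y X hX hY hXY c
    (fun p hp => hout p (Or.inl hp)) hm h hh' t ht (n + c) δ
  rw [show (-(c : ℤ) + ((n + c : ℕ) : ℤ)) = n by push_cast; ring,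
    wlo_top hX hY hXY (fun p hp => hout p (Or.inr hp)), wg_tg_self S hQ] at h1
  exact h1

end

end Vale.Agent.P202.CharP.Gen
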