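import Vale.Agent.P202.CharP.Gen.Defs
import Vale.Agent.P202.CharP.Les

/-!
P202-GEN, task GEN-2: inequalities from the long exact sequence for `hc`, additivity of the Euler
characteristic, transport of the cohomology of a pair along a linear map.
-/

namespace Vale.Agent.P202.CharP.Gen

open Submodule TensorProduct IsLocalRing

namespace LesC

section

variable {S 𝕋 : Type*} [CommRing S] [AddCommGroup 𝕋] [Module S 𝕋]

/-- the reversed family. -/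
def rev (X : ℤ → Submodule S 𝕋) (δ : ℤ) : Submodule S 𝕋 := X (-δ)

lemma cz_eq (d : 𝕋 →ₗ[S] 𝕋) (Y X : ℤ → Submodule S 𝕋) (p : ℤ) :
    cz d Y X p = zz d (rev Y) (rev X) (-p) := by
  have h1 : -(-p - 1) = p + 1 := by ring
  simp only [cz, zz, rev, neg_neg, h1]

lemma cb_eq (d : 𝕋 →ₗ[S] 𝕋) (Y X : ℤ → Submodule S 𝕋) (p : ℤ) :
    cb d Y X p = bb d (rev Y) (rev X) (-p) := by
  have h1 : -(-p + 1) = p - 1 := by ring
  simp only [cb, bb, rev, neg_neg, h1]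

lemma hc_eq (d : 𝕋 →ₗ[S] 𝕋) (Y X : ℤ → Submodule S 𝕋) (p : ℤ) :
    hc d Y X p = hh d (rev Y) (rev X) (-p) := by
  rw [hc, hh, cz_eq, cb_eq]

lemma rev_stab {d : 𝕋 →ₗ[S] 𝕋} {X : ℤ → Submodule S 𝕋} (hX : CStab d X) :
    Stab d (rev X) := by
  intro δ x hx
  have h := hX _ x hx
  have h1 : -(δ - 1) = -δ + 1 := by ring
  rw [rev, h1]
  exact h

/-- the three terms of the long exact sequence. -/
lemma les (d : 𝕋 →ₗ[S] 𝕋) (hd : ∀ x, d (d x) = 0) (X Y Z : ℤ → Submodule S 𝕋)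
    (hX : CStab d X) (hY : CStab d Y) (hZ : CStab d Z) (hXY : ∀ p, X p ≤ Y p)
    (hYZ : ∀ p, Y p ≤ Z p) : ∃ a b e : ℤ → ℕ∞, ∀ p,
      hc d Z X p = a p + b p ∧ hc d Z Y p = b p + e (p + 1) ∧ hc d Y X p = e p + a p := by
  refine ⟨fun p => rl (bb d (rev Z) (rev X) (-p))
      (zz d (rev Y) (rev X) (-p) ⊔ bb d (rev Z) (rev X) (-p)),
    fun p => rl (bb d (rev Z) (rev Y) (-p))
      (zz d (rev Z) (rev X) (-p) ⊔ bb d (rev Z) (rev Y) (-p)),
    fun p => rl (bb d (rev Y) (rev X) (-p))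
      ((zz d (rev Z) (rev Y) (-p + 1)).map d ⊔ bb d (rev Y) (rev X) (-p)), fun p => ?_⟩
  have h := hh_les d hd (rev X) (rev Y) (rev Z) (rev_stab hX) (rev_stab hY) (rev_stab hZ)
    (fun δ => hXY _) (fun δ => hYZ _) (-p)
  have e1 : -(p + 1) = -p - 1 := by ring
  have e2 : -p - 1 + 1 = -p := by ring
  simp only [hc_eq, e1, e2]
  exact h

end

end LesC

section Hom

variable {S 𝕋 : Type*} [CommRing S] [AddCommGroup 𝕋] [Module S 𝕋]

/-- TASK GEN-2: the window of lengths `h p`, cohomological version of the long exact sequence. -/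
theorem hc_le_add (d : 𝕋 →ₗ[S] 𝕋) (hd : ∀ x, d (d x) = 0) (X Y Z : ℤ → Submodule S 𝕋)
    (hX : CStab d X) (hY : CStab d Y) (hZ : CStab d Z) (hXY : ∀ p, X p ≤ Y p)
    (hYZ : ∀ p, Y p ≤ Z p) (p : ℤ) : hc d Z X p ≤ hc d Z Y p + hc d Y X p := by
  obtain ⟨a, b, e, h⟩ := LesC.les d hd X Y Z hX hY hZ hXY hYZ
  obtain ⟨h1, h2, h3⟩ := h p
  rw [h1, h2, h3, add_comm (a p)]
  exact add_le_add le_self_add le_add_self

/-- TASK GEN-2. -/
theorem hc_sub_le (d : 𝕋 →ₗ[S] 𝕋) (hd : ∀ x, d (d x) = 0) (X Y Z : ℤ → Submodule S 𝕋)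
    (hX : CStab d X) (hY : CStab d Y) (hZ : CStab d Z) (hXY : ∀ p, X p ≤ Y p)
    (hYZ : ∀ p, Y p ≤ Z p) (p : ℤ) : hc d Y X p ≤ hc d Z X p + hc d Z Y (p - 1) := by
  obtain ⟨a, b, e, h⟩ := LesC.les d hd X Y Z hX hY hZ hXY hYZ
  obtain ⟨h1, -, h3⟩ := h p
  obtain ⟨-, h2, -⟩ := h (p - 1)
  rw [sub_add_cancel] at h2
  rw [h1, h2, h3, add_comm (e p)]
  exact add_le_add le_self_add le_add_self

/-- TASK GEN-2. -/
theorem hc_quot_le (d : 𝕋 →ₗ[S] 𝕋) (hd : ∀ x, d (d x) = 0) (X Y Z : ℤ → Submodule S 𝕋)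
    (hX : CStab d X) (hY : CStab d Y) (hZ : CStab d Z) (hXY : ∀ p, X p ≤ Y p)
    (hYZ : ∀ p, Y p ≤ Z p) (p : ℤ) : hc d Z Y p ≤ hc d Z X p + hc d Y X (p + 1) := by
  obtain ⟨a, b, e, h⟩ := LesC.les d hd X Y Z hX hY hZ hXY hYZ
  obtain ⟨h1, h2, -⟩ := h p
  obtain ⟨-, -, h3⟩ := h (p + 1)
  rw [h1, h2, h3]
  exact add_le_add le_add_self le_self_add

/-- TASK GEN-2: additivity of the Euler characteristic. -/
theorem hc_xi_add (c n : ℕ) (d : 𝕋 →ₗ[S] 𝕋) (hd : ∀ x, d (d x) = 0) (X Y Z : ℤ → Submodule S 𝕋)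
    (hX : CStab d X) (hY : CStab d Y) (hZ : CStab d Z) (hXY : ∀ p, X p ≤ Y p)
    (hYZ : ∀ p, Y p ≤ Z p) (h1 : ∀ p, hc d Z Y p ≠ ⊤) (h2 : ∀ p, hc d Y X p ≠ ⊤)
    (h3 : ∀ p, (p < -(c : ℤ) ∨ (n : ℤ) ≤ p) → Z p ≤ X p) :
    xic c n (hc d Z X) = xic c n (hc d Z Y) + xic c n (hc d Y X) := by
  obtain ⟨a, b, e, h⟩ := LesC.les d hd X Y Z hX hY hZ hXY hYZ
  have hb : ∀ p, b p ≠ ⊤ := fun p hp => h1 p (by rw [(h p).2.1, hp, top_add])
  have ha : ∀ p, a p ≠ ⊤ := fun p hp => h2 p (by rw [(h p).2.2, hp, add_top])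
  have he : ∀ p, e p ≠ ⊤ := fun p hp => h2 p (by rw [(h p).2.2, hp, top_add])
  -- the boundary terms vanish
  have hz : ∀ p, (p < -(c : ℤ) ∨ (n : ℤ) ≤ p) → hc d Z Y p = 0 ∧ hc d Y X p = 0 := by
    intro p hp
    refine ⟨rl_eq_zero_iff.2 ?_, rl_eq_zero_iff.2 ?_⟩
    · exact inf_le_left.trans (((h3 p hp).trans (hXY p)).trans le_sup_right)
    · exact inf_le_left.trans (((hYZ p).trans (h3 p hp)).trans le_sup_right)
  have e1 : e (-(c : ℤ)) = 0 := by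
    have h4 := (h (-(c : ℤ) - 1)).2.1
    rw [(hz _ (Or.inl (by omega))).1, sub_add_cancel] at h4
    exact (add_eq_zero.1 h4.symm).2
  have key : ∀ m : ℕ, (m : ℤ) ≤ (n : ℤ) + c →
      ∑ p ∈ Finset.Ico (-(c : ℤ)) (-(c : ℤ) + m), (p.negOnePow : ℤ) * (((hc d Z Y p).toNat : ℤ) +
        ((hc d Y X p).toNat : ℤ) - ((hc d Z X p).toNat : ℤ)) =
      -((-(c : ℤ) + m).negOnePow : ℤ) * ((e (-(c : ℤ) + m)).toNat : ℤ) := by
    intro m
    induction m with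
    | zero =>
      intro _
      simp [e1]
    | succ m ih =>
      intro hm
      have ih' := ih (by push_cast at hm ⊢; linarith)
      have e2 : (-(c : ℤ) + ((m + 1 : ℕ) : ℤ)) = (-(c : ℤ) + m) + 1 := by push_cast; ring
      rw [e2, ← Finset.insert_Ico_right_eq_Ico_add_one (by omega : -(c : ℤ) ≤ -(c : ℤ) + m),
        Finset.sum_insert Finset.right_notMem_Ico, ih', (h _).1, (h _).2.1, (h _).2.2,
        ENat.toNat_add (hb _) (he _), ENat.toNat_add (he _) (ha _), ENat.toNat_add (ha _) (hb _),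
        Int.negOnePow_succ]
      push_cast
      ring
  have hfin : xic c n (hc d Z Y) + xic c n (hc d Y X) - xic c n (hc d Z X) = 0 := by
    have h5 := key (n + c) (by push_cast; linarith)
    have e3 : (-(c : ℤ) + ((n + c : ℕ) : ℤ)) = n := by push_cast; ring
    rw [e3] at h5
    have e4 : e (n : ℤ) = 0 := by
      have h4 := (h (n : ℤ)).2.2
      rw [(hz _ (Or.inr le_rfl)).2] at h4
      exact (add_eq_zero.1 h4.symm).1
    rw [e4] at h5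
    simp only [xic]
    rw [← Finset.sum_add_distrib, ← Finset.sum_sub_distrib]
    rw [ENat.toNat_zero, Nat.cast_zero, mul_zero] at h5
    rw [← h5]
    refine Finset.sum_congr rfl fun p _ => ?_
    ring
  linarith

/-- TASK GEN-2: transport of the cohomology of a pair along a linear map. -/
theorem hc_transport {𝕋' : Type*} [AddCommGroup 𝕋'] [Module S 𝕋'] (d : 𝕋 →ₗ[S] 𝕋)
    (d' : 𝕋' →ₗ[S] 𝕋') (φ : 𝕋 →ₗ[S] 𝕋') (hφ : ∀ x, φ (d x) = d' (φ x))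
    (X Y : ℤ → Submodule S 𝕋) (X' Y' : ℤ → Submodule S 𝕋') (hX : CStab d X) (hY : CStab d Y)
    (hX' : CStab d' X') (h0 : ∀ p, X p ≤ Y p)
    (h1 : ∀ p, (Y p).map φ ⊔ X' p = Y' p) (h2 : ∀ p, Y p ⊓ (X' p).comap φ = X p) (p : ℤ) :
    hc d Y X p = hc d' Y' X' p := by
  have _ := hX
  have _ := h0
  have hXφ : ∀ p x, x ∈ X p → φ x ∈ X' p := by
    intro p x hx
    rw [← h2 p] at hx
    exact hx.2
  have hYφ : ∀ p x, x ∈ Y p → φ x ∈ Y' p := by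
    intro p x hx
    rw [← h1 p]
    exact mem_sup_left ⟨x, hx, rfl⟩
  have i1 : (cz d Y X p).map φ ≤ cz d' Y' X' p := by
    rintro _ ⟨y, ⟨hy1, hy2⟩, rfl⟩
    refine ⟨hYφ p y hy1, ?_⟩
    change d' (φ y) ∈ X' (p + 1)
    rw [← hφ]
    exact hXφ _ _ hy2
  have i2 : cz d' Y' X' p ≤ cb d' Y' X' p ⊔ (cz d Y X p).map φ := by
    rintro z ⟨hz1, hz2⟩
    have hz3 : d' z ∈ X' (p + 1) := hz2
    have hz1' : z ∈ (Y p).map φ ⊔ X' p := by rw [h1]; exact hz1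
    obtain ⟨_, ⟨y, hy, rfl⟩, x, hx, rfl⟩ := mem_sup.1 hz1'
    have h3 : φ (d y) ∈ X' (p + 1) := by
      rw [map_add, ← hφ] at hz3
      exact (Submodule.add_mem_iff_left _ (hX' p x hx)).1 hz3
    have h4 : d y ∈ X (p + 1) := by
      rw [← h2]
      exact ⟨hY p y hy, h3⟩
    rw [add_comm]
    exact add_mem_sup (mem_sup_right hx) ⟨y, ⟨hy, h4⟩, rfl⟩
  have i3 : (cb d' Y' X' p).comap φ ⊓ cz d Y X p = cb d Y X p ⊓ cz d Y X p := by
    apply le_antisymm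
    · rintro y ⟨hy1, hy2⟩
      refine ⟨?_, hy2⟩
      obtain ⟨_, ⟨z, hz, rfl⟩, x2, hx2, he⟩ := mem_sup.1 hy1
      have hz' : z ∈ (Y (p - 1)).map φ ⊔ X' (p - 1) := by rw [h1]; exact hz
      obtain ⟨_, ⟨y1, hy1', rfl⟩, x1, hx1, rfl⟩ := mem_sup.1 hz'
      have h5 : d y1 ∈ Y p := by
        have := hY _ _ hy1'
        rwa [sub_add_cancel] at this
      have h6 : d' x1 ∈ X' p := by
        have := hX' _ _ hx1
        rwa [sub_add_cancel] at this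
      have h7 : y - d y1 ∈ X p := by
        rw [← h2]
        refine ⟨Submodule.sub_mem _ hy2.1 h5, ?_⟩
        change φ (y - d y1) ∈ X' p
        have h8 : φ (y - d y1) = d' x1 + x2 := by
          rw [map_sub, hφ, ← he, map_add]
          abel
        rw [h8]
        exact Submodule.add_mem _ h6 hx2
      have h9 : y = d y1 + (y - d y1) := by abel
      rw [h9]
      exact add_mem_sup ⟨y1, hy1', rfl⟩ h7
    · refine inf_le_inf_right _ ?_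
      refine sup_le ?_ ?_
      · rintro _ ⟨y, hy, rfl⟩
        refine mem_sup_left ⟨φ y, hYφ _ _ hy, (hφ y).symm⟩
      · intro x hx
        exact mem_sup_right (hXφ _ _ hx)
  rw [hc, hc]
  have j1 : cb d' Y' X' p ⊔ cz d' Y' X' p = cb d' Y' X' p ⊔ (cz d Y X p).map φ :=
    le_antisymm (sup_le le_sup_left i2) (sup_le_sup_left i1 _)
  rw [← rl_sup_right (cb d' Y' X' p) (cz d' Y' X' p), j1, rl_sup_right, les_rl_map_right,
    ← rl_inf_left ((cb d' Y' X' p).comap φ), i3, rl_inf_left]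

end Hom

end Vale.Agent.P202.CharP.Gen
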