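import Vale.Agent.P202.CharP.Gen.Defs
import Vale.Agent.P202.CharP.BaseCh
import Vale.Agent.P202.CharP.TotBasic

/-!
P202-GEN-6: the décalage family.
-/

namespace Vale.Agent.P202.CharP.Gen

open Submodule TensorProduct IsLocalRing

section DecG

variable {A : Type*} [CommRing A] {V : Type*} [AddCommGroup V] [Module A V]
  (S : Type*) [CommRing S] [Algebra A S] {ι : Type*} [Fintype ι]

theorem gg_bcf_mono {X Y : ℤ → Submodule A V} (h : ∀ p, X p ≤ Y p) (p : ℤ) :
    bcf S X p ≤ bcf S Y p := baseChange_mono S (h p)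

theorem gg_chain_mono {W : ℕ → ℤ → Submodule A V} (mono : ∀ j p, W j p ≤ W (j + 1) p) {i j : ℕ}
    (h : i ≤ j) (p : ℤ) : bcf S (W i) p ≤ bcf S (W j) p :=
  baseChange_mono S (monotone_nat_of_le_succ (f := fun j => W j p) (fun j => mono j p) h)

theorem mem_gg (deg : ι → ℤ) (Q : Matrix ι ι S) (W : ℕ → ℤ → Submodule A V) (δ : ℤ)
    (f : ι → S ⊗[A] V) :
    f ∈ GG S deg Q W δ ↔ (∀ a, f a ∈ bcf S (W (deg a).toNat) (deg a - δ)) ∧
      ∀ a, act Q (S ⊗[A] V) f a ∈ bcf S (W (deg a).toNat) (deg a - δ + 1) := by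
  simp only [GG, Submodule.mem_inf, Submodule.mem_comap, Submodule.mem_pi, Set.mem_univ,
    forall_true_left]

theorem mem_tg' (deg : ι → ℤ) (Q : Matrix ι ι S) (j : ℤ) (Y X : ℤ → Submodule A V) (δ : ℤ)
    (f : ι → S ⊗[A] V) :
    f ∈ TG S deg Q j Y X δ ↔ (∀ a, f a ∈ bcf S Y (deg a - δ)) ∧
      (∀ a, deg a ≤ j → f a ∈ bcf S X (deg a - δ)) ∧
      ∀ a, deg a ≤ j → act Q (S ⊗[A] V) f a ∈ bcf S X (deg a - δ + 1) := by
  simp only [TG, Submodule.mem_inf, Submodule.mem_comap, Submodule.mem_pi, Set.mem_univ,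
    forall_true_left, mem_lift]
  have h1 : ∀ (a : ι) (x : S ⊗[A] V) (P : Submodule S (S ⊗[A] V)),
      (x ∈ if deg a ≤ j then P else ⊤) ↔ (deg a ≤ j → x ∈ P) := by
    intro a x P
    split_ifs with h <;> simp [h]
  simp only [h1]

/-- TASK GEN-6: the décalage family. -/
theorem gg_stab (deg : ι → ℤ) (Q : Matrix ι ι S) (hQ : IsCx deg Q)
    (hdeg : ∀ a, 0 ≤ deg a) (d : V →ₗ[A] V) (W : ℕ → ℤ → Submodule A V)
    (hW : ∀ j, CStab d (W j)) : Stab (tot deg Q (d.baseChange S)) (GG S deg Q W) := by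
  have hWS : ∀ j p x, x ∈ bcf S (W j) p → d.baseChange S x ∈ bcf S (W j) (p + 1) := by
    intro j p x hx
    have h1 : W j p ≤ (W j (p + 1)).comap d := fun v hv => hW j p v hv
    have h2 : (W j p).map d ≤ W j (p + 1) := Submodule.map_le_iff_le_comap.2 h1
    have h3 := baseChange_mono S h2
    rw [baseChange_map] at h3
    exact h3 (Submodule.mem_map_of_mem hx)
  intro δ f hf
  rw [mem_gg] at hf ⊢
  obtain ⟨hf1, hf2⟩ := hf
  have hQQ : act Q (S ⊗[A] V) (act Q (S ⊗[A] V) f) = 0 := by
    rw [← act_mul, hQ.sq, act_zero]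
  constructor
  · intro a
    rw [tot_eq]
    have e : deg a - (δ - 1) = deg a - δ + 1 := by ring
    rw [e]
    exact add_mem (hf2 a) (zsmul_mem (hWS _ _ _ (hf1 a)) _)
  · intro a
    have e : deg a - (δ - 1) + 1 = deg a - δ + 1 + 1 := by ring
    rw [e]
    have h1 : act Q (S ⊗[A] V) (tot deg Q (d.baseChange S) f) a =
        -(((deg a).negOnePow : ℤ) • d.baseChange S (act Q (S ⊗[A] V) f a)) := by
      have h2 : tot deg Q (d.baseChange S) f = act Q (S ⊗[A] V) f +
          fun b => ((deg b).negOnePow : ℤ) • d.baseChange S (f b) := by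
        ext b
        rfl
      rw [h2, map_add, hQQ, zero_add, act_apply, act_apply, map_sum, Finset.smul_sum,
        ← Finset.sum_neg_distrib]
      refine Finset.sum_congr rfl fun b _ => ?_
      by_cases hb : Q a b = 0
      · simp [hb]
      · rw [hQ.deg_eq a b hb, negOnePow_succ', neg_smul, smul_neg, smul_comm, map_smul]
    rw [h1]
    exact neg_mem (zsmul_mem (hWS _ _ _ (hf2 a)) _)

/-- TASK GEN-6. -/
theorem lift_le_gg (deg : ι → ℤ) (Q : Matrix ι ι S) (hQ : IsCx deg Q)
    (W : ℕ → ℤ → Submodule A V) (mono : ∀ j p, W j p ≤ W (j + 1) p) (δ : ℤ) :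
    lift deg (bcf S (W 0)) δ ≤ GG S deg Q W δ := by
  intro f hf
  rw [mem_lift] at hf
  rw [mem_gg]
  refine ⟨fun a => gg_chain_mono S mono (Nat.zero_le _) _ (hf a), fun a => ?_⟩
  refine gg_chain_mono S mono (Nat.zero_le _) _ ?_
  rw [act_apply]
  refine Submodule.sum_mem _ fun b _ => ?_
  by_cases hb : Q a b = 0
  · simp [hb]
  · have h := hf b
    rw [hQ.deg_eq a b hb] at h
    have e : deg a + 1 - δ = deg a - δ + 1 := by ring
    rw [e] at h
    exact Submodule.smul_mem _ _ h

/-- TASK GEN-6. -/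
theorem gg_le_lift (deg : ι → ℤ) (Q : Matrix ι ι S) (n : ℕ)
    (hdeg : ∀ a, 0 ≤ deg a ∧ deg a ≤ n)
    (W : ℕ → ℤ → Submodule A V) (mono : ∀ j p, W j p ≤ W (j + 1) p) (δ : ℤ) :
    GG S deg Q W δ ≤ lift deg (bcf S (W n)) δ := by
  intro f hf
  rw [mem_gg] at hf
  rw [mem_lift]
  intro a
  have h1 := hdeg a
  exact gg_chain_mono S mono (by omega) _ (hf.1 a)

/-- TASK GEN-6. -/
theorem gg_tg (deg : ι → ℤ) (Q : Matrix ι ι S) (hQ : IsCx deg Q)
    (hdeg : ∀ a, 0 ≤ deg a)
    (W : ℕ → ℤ → Submodule A V) (mono : ∀ j p, W j p ≤ W (j + 1) p) (j : ℕ) (δ : ℤ) :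
    (GG S deg Q W δ ⊓ lift deg (bcf S (W (j + 1))) δ) ⊔ lift deg (bcf S (W j)) δ =
      TG S deg Q j (W (j + 1)) (W j) δ := by
  apply le_antisymm
  · refine sup_le ?_ ?_
    · rintro f ⟨hf1, hf2⟩
      rw [SetLike.mem_coe, mem_gg] at hf1
      rw [SetLike.mem_coe, mem_lift] at hf2
      rw [mem_tg']
      refine ⟨hf2, fun a ha => ?_, fun a ha => ?_⟩
      · have := hdeg a
        exact gg_chain_mono S mono (by omega) _ (hf1.1 a)
      · have := hdeg a
        exact gg_chain_mono S mono (by omega) _ (hf1.2 a)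
    · intro f hf
      rw [mem_lift] at hf
      rw [mem_tg']
      refine ⟨fun a => gg_chain_mono S mono (Nat.le_succ j) _ (hf a), fun a _ => hf a,
        fun a _ => ?_⟩
      rw [act_apply]
      refine Submodule.sum_mem _ fun b _ => ?_
      by_cases hb : Q a b = 0
      · simp [hb]
      · have h := hf b
        rw [hQ.deg_eq a b hb] at h
        have e : deg a + 1 - δ = deg a - δ + 1 := by ring
        rw [e] at h
        exact Submodule.smul_mem _ _ h
  · intro f hf
    rw [mem_tg'] at hf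
    obtain ⟨hf1, hf2, hf3⟩ := hf
    classical
    set g : ι → S ⊗[A] V := fun a => if (j : ℤ) + 1 ≤ deg a then f a else 0 with hg
    have hg1 : ∀ a, (j : ℤ) + 1 ≤ deg a → g a = f a := fun a ha => if_pos ha
    have hg0 : ∀ a, ¬ (j : ℤ) + 1 ≤ deg a → g a = 0 := fun a ha => if_neg ha
    refine Submodule.mem_sup.2 ⟨g, ⟨?_, ?_⟩, f - g, ?_, by abel⟩
    · rw [SetLike.mem_coe, mem_gg]
      refine ⟨fun a => ?_, fun a => ?_⟩
      · by_cases ha : (j : ℤ) + 1 ≤ deg a
        · rw [hg1 a ha]
          exact gg_chain_mono S mono (by omega) _ (hf1 a)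
        · rw [hg0 a ha]
          exact zero_mem _
      · rcases lt_trichotomy (deg a) j with ha | ha | ha
        · have h0 : act Q (S ⊗[A] V) g a = 0 := by
            rw [act_apply]
            refine Finset.sum_eq_zero fun b _ => ?_
            by_cases hb : Q a b = 0
            · simp [hb]
            · have := hQ.deg_eq a b hb
              rw [hg0 b (by omega), smul_zero]
          rw [h0]
          exact zero_mem _
        · have h0 : act Q (S ⊗[A] V) g a = act Q (S ⊗[A] V) f a := by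
            rw [act_apply, act_apply]
            refine Finset.sum_congr rfl fun b _ => ?_
            by_cases hb : Q a b = 0
            · simp [hb]
            · have := hQ.deg_eq a b hb
              rw [hg1 b (by omega)]
          rw [h0]
          exact gg_chain_mono S mono (by omega) _ (hf3 a ha.le)
        · rw [act_apply]
          refine Submodule.sum_mem _ fun b _ => ?_
          by_cases hb : Q a b = 0
          · simp [hb]
          · have hd := hQ.deg_eq a b hb
            rw [hg1 b (by omega)]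
            have h := hf1 b
            rw [hd] at h
            have e : deg a + 1 - δ = deg a - δ + 1 := by ring
            rw [e] at h
            exact Submodule.smul_mem _ _ (gg_chain_mono S mono (by omega) _ h)
    · rw [SetLike.mem_coe, mem_lift]
      intro a
      by_cases ha : (j : ℤ) + 1 ≤ deg a
      · rw [hg1 a ha]
        exact hf1 a
      · rw [hg0 a ha]
        exact zero_mem _
    · rw [mem_lift]
      intro a
      rw [Pi.sub_apply]
      by_cases ha : (j : ℤ) + 1 ≤ deg a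
      · rw [hg1 a ha, sub_self]
        exact zero_mem _
      · rw [hg0 a ha, sub_zero]
        exact hf2 a (by omega)

end DecG

end Vale.Agent.P202.CharP.Gen
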