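import Vale.Agent.P202.CharP.Gen.LesG
import Vale.Agent.P202.CharP.Gen.TruncG
import Vale.Agent.P202.CharP.Gen.DecG
import Vale.Agent.P202.CharP.Gen.WindowG

/-!
P202-GEN-7: the core theorem with errors.
-/

namespace Vale.Agent.P202.CharP.Gen

open Submodule TensorProduct IsLocalRing

section CoreG

variable {A : Type*} [CommRing A] [IsLocalRing A] {V : Type*} [AddCommGroup V] [Module A V]
  (S : Type*) [CommRing S] [Algebra A S] [Module.Flat A S] {ι : Type*} [Fintype ι]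

/-- the homology of the residue complex vanishes in negative degrees. -/
lemma cg_kh_neg (deg : ι → ℤ) (Q : Matrix ι ι S) (hdeg : ∀ a, 0 ≤ deg a) (M : Type*)
    [AddCommGroup M] [Module S M] (i : ℤ) (hi : i < 0) : kh deg Q M i = 0 := by
  rw [kh, khs, hh, rl_eq_zero_iff]
  rintro x ⟨hx, -⟩
  have h0 : x = 0 := by
    ext a
    have := (mem_lift deg _ _ _).mp hx a
    rw [conc, if_neg (by have := hdeg a; omega)] at this
    exact this
  rw [h0]
  exact Submodule.zero_mem _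

omit [IsLocalRing A] [Module.Flat A S] in
/-- the homology of a lifted pair vanishes outside the range of degrees. -/
lemma cg_hh_out {𝕋 : Type*} [AddCommGroup 𝕋] [Module S 𝕋] (D : 𝕋 →ₗ[S] 𝕋)
    (Y X : ℤ → Submodule S 𝕋) (δ : ℤ) (h : Y δ ≤ X δ) : hh D Y X δ = 0 := by
  rw [hh, rl_eq_zero_iff]
  exact (inf_le_left.trans h).trans le_sup_right

/-- error sums. -/
lemma cg_sum_le (n c : ℕ) (t : ℤ → ℕ) (ht : ∀ i, i < 0 → t i = 0)
    (ht' : ∀ i, (n : ℤ) < i → t i = 0) (h : ℤ → ℕ) (P : ℤ) (ε : ℕ)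
    (small : ∀ p, p ≠ P → h p ≤ ε) (δ : ℤ) (q : ℤ → Prop) [DecidablePred q]
    (main : q P → h P * t (δ + P) = 0) :
    (∑ p ∈ Finset.Ico (-(c : ℤ)) n, if q p then h p * t (δ + p) else 0) ≤
      ε * ∑ i ∈ Finset.range (n + 1), t i := by
  have h1 : ∀ p ∈ Finset.Ico (-(c : ℤ)) n, (if q p then h p * t (δ + p) else 0) ≤
      ε * t (δ + p) := by
    intro p _
    split_ifs with hq
    · by_cases hp : p = P
      · subst hp
        rw [main hq]
        exact Nat.zero_le _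
      · exact Nat.mul_le_mul_right _ (small p hp)
    · exact Nat.zero_le _
  refine (Finset.sum_le_sum h1).trans ?_
  rw [← Finset.mul_sum]
  refine Nat.mul_le_mul_left _ ?_
  have h2 : ∑ i ∈ Finset.range (n + 1), t i = ∑ i ∈ Finset.Icc (0 : ℤ) n, t i := by
    refine Finset.sum_nbij (fun i : ℕ => (i : ℤ)) ?_ ?_ ?_ ?_
    · intro i hi
      simp only [Finset.mem_range] at hi
      simp only [Finset.mem_Icc]
      omega
    · intro i _ j _ hij
      simpa using hij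
    · intro i hi
      simp only [Finset.coe_Icc, Set.mem_Icc] at hi
      refine ⟨i.toNat, ?_, ?_⟩
      · simp only [Finset.coe_range, Set.mem_Iio]
        omega
      · simp only
        omega
    · intro i _
      rfl
  rw [h2]
  have h3 : ∑ p ∈ Finset.Ico (-(c : ℤ)) n, t (δ + p) =
      ∑ i ∈ (Finset.Ico (-(c : ℤ)) n).image (fun p => δ + p), t i := by
    rw [Finset.sum_image]
    intro a _ b _ hab
    simpa using hab
  rw [h3]
  refine Finset.sum_le_sum_of_ne_zero ?_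
  intro i _ hi
  rw [Finset.mem_Icc]
  constructor
  · by_contra hc
    exact hi (ht i (by omega))
  · by_contra hc
    exact hi (ht' i (by omega))

lemma cg_nop (m : ℕ) : (((m : ℤ).negOnePow : ℤˣ) : ℤ) = (-1) ^ m := by
  rw [Int.negOnePow_def, zpow_natCast]
  simp

/-- telescoping. -/
lemma cg_tele (n : ℕ) (t r : ℤ → ℤ) (hr : ∀ i, t i = r i + r (i + 1))
    (hr' : ∀ i, (n : ℤ) < i → r i = 0) (j : ℕ) (hj : j < n) :
    ∑ i ∈ Finset.Icc ((j : ℤ) + 1) n, ((i.negOnePow : ℤˣ) : ℤ) * t i =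
      -((-1) ^ j * r (j + 1)) := by
  obtain ⟨k, rfl⟩ : ∃ k, n = j + 1 + k := ⟨n - (j + 1), by omega⟩
  have key : ∀ k : ℕ, ∑ i ∈ Finset.Icc ((j : ℤ) + 1) ((j + 1 + k : ℕ) : ℤ),
      ((i.negOnePow : ℤˣ) : ℤ) * t i =
      -((-1) ^ j * r (j + 1)) + (-1) ^ (j + 1 + k) * r ((j + 1 + k : ℕ) + 1) := by
    intro k
    induction k with
    | zero =>
      have : Finset.Icc ((j : ℤ) + 1) ((j + 1 + 0 : ℕ) : ℤ) = {(j : ℤ) + 1} := by
        rw [add_zero]
        push_cast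
        exact Finset.Icc_self _
      rw [this, Finset.sum_singleton, hr]
      rw [negOnePow_succ', cg_nop]
      push_cast
      ring_nf
    | succ k ih =>
      have : Finset.Icc ((j : ℤ) + 1) ((j + 1 + (k + 1) : ℕ) : ℤ) =
          insert ((j + 1 + (k + 1) : ℕ) : ℤ) (Finset.Icc ((j : ℤ) + 1) ((j + 1 + k : ℕ) : ℤ)) := by
        ext x
        simp only [Finset.mem_Icc, Finset.mem_insert]
        omega
      rw [this, Finset.sum_insert (by simp only [Finset.mem_Icc]; omega), ih, hr]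
      rw [cg_nop]
      have e2 : (((j + 1 + (k + 1) : ℕ) : ℤ)) = ((j + 1 + k : ℕ) : ℤ) + 1 := by push_cast; ring
      rw [e2]
      ring
  rw [key, hr' (((j + 1 + k : ℕ) : ℤ) + 1) (by omega)]
  ring

omit [IsLocalRing A] [Module.Flat A S] in
lemma cg_cstab (d : V →ₗ[A] V) (X : ℤ → Submodule A V) (hX : CStab d X) :
    CStab (d.baseChange S) (bcf S X) := by
  intro p x hx
  have h1 : (X p).map d ≤ X (p + 1) := by
    rintro _ ⟨y, hy, rfl⟩
    exact hX p y hy
  have h2 : ((X p).baseChange S).map (d.baseChange S) ≤ (X (p + 1)).baseChange S := by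
    rw [← baseChange_map S d (X p)]
    exact Submodule.baseChange_mono S h1
  exact h2 (Submodule.mem_map_of_mem hx)

omit [IsLocalRing A] [Module.Flat A S] in
lemma cg_dd (d : V →ₗ[A] V) (hd : ∀ x, d (d x) = 0) (x : S ⊗[A] V) :
    d.baseChange S (d.baseChange S x) = 0 := by
  have h1 : d.comp d = 0 := LinearMap.ext hd
  have h2 : (d.baseChange S).comp (d.baseChange S) = 0 := by
    rw [← LinearMap.baseChange_comp, h1, LinearMap.baseChange_zero]
  exact LinearMap.congr_fun h2 x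

/-- Euler characteristic estimate. -/
lemma cg_xi_lower (n c : ℕ) (f : ℤ → ℕ∞) (B : ℕ) (h0 : ∀ δ, δ ≤ -(n : ℤ) → f δ = 0)
    (h1 : ∀ δ, δ ≠ 0 → f δ ≤ (B : ℕ∞)) :
    -((2 * n + c) * B : ℤ) ≤ xi (n + c) f := by
  have h2 : ∀ δ ∈ Finset.Icc (-((n + c : ℕ) : ℤ)) ((n + c : ℕ) : ℤ),
      (if δ ∈ Finset.Ioc (-(n : ℤ)) ((n + c : ℕ) : ℤ) then -(B : ℤ) else 0) ≤
        (δ.negOnePow : ℤ) * ((f δ).toNat : ℤ) := by
    intro δ hδ
    rw [Finset.mem_Icc] at hδ
    by_cases hn : δ ≤ -(n : ℤ)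
    · rw [if_neg (by rw [Finset.mem_Ioc]; omega), h0 δ hn]
      simp
    · rw [if_pos (by rw [Finset.mem_Ioc]; omega)]
      by_cases hz : δ = 0
      · subst hz
        simp only [Int.negOnePow_zero, Units.val_one, one_mul]
        have := Int.natCast_nonneg B
        have := Int.natCast_nonneg (f 0).toNat
        omega
      · have h3 : (f δ).toNat ≤ B := ENat.toNat_le_of_le_natCast (h1 δ hz)
        rcases Int.units_eq_one_or δ.negOnePow with h | h
        · rw [h]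
          simp only [Units.val_one, one_mul]
          omega
        · rw [h]
          simp only [Units.val_neg, Units.val_one, neg_mul, one_mul]
          omega
  refine le_trans ?_ (Finset.sum_le_sum h2)
  rw [← Finset.sum_filter]
  have h4 : (Finset.Icc (-((n + c : ℕ) : ℤ)) ((n + c : ℕ) : ℤ)).filter
      (fun δ => δ ∈ Finset.Ioc (-(n : ℤ)) ((n + c : ℕ) : ℤ)) =
      Finset.Ioc (-(n : ℤ)) ((n + c : ℕ) : ℤ) := by
    ext x
    simp only [Finset.mem_filter, Finset.mem_Icc, Finset.mem_Ioc]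
    push_cast
    omega
  rw [h4, Finset.sum_const, Int.card_Ioc]
  have h5 : ((((n + c : ℕ) : ℤ) - -(n : ℤ)).toNat : ℤ) = 2 * n + c := by
    push_cast
    omega
  rw [nsmul_eq_mul]
  have h6 : (((((n + c : ℕ) : ℤ) - -(n : ℤ)).toNat : ℕ) : ℤ) * -(B : ℤ) = -((2 * n + c) * B) := by
    rw [h5]
    ring
  exact h6.ge

/-- the abstract form of the core theorem. -/
theorem cg_abs {𝕋 : Type*} [AddCommGroup 𝕋] [Module S 𝕋] (D : 𝕋 →ₗ[S] 𝕋)
    (hD : ∀ x, D (D x) = 0) (n c N : ℕ) (L : ℕ → ℤ → Submodule S 𝕋)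
    (X G : ℤ → Submodule S 𝕋) (U : ℕ → ℤ → Submodule S 𝕋) (Lst : ∀ j, Stab D (L j))
    (Xst : Stab D X) (Gst : Stab D G) (Lmono : ∀ j δ, L j δ ≤ L (j + 1) δ)
    (XL : ∀ δ, X δ ≤ L 0 δ) (L0G : ∀ δ, L 0 δ ≤ G δ) (GLn : ∀ δ, G δ ≤ L n δ)
    (GU : ∀ j δ, (G δ ⊓ L (j + 1) δ) ⊔ L j δ = U j δ)
    (Lout : ∀ j δ, (δ ≤ -(n : ℤ) ∨ (n : ℤ) + c < δ) → L j δ ≤ X δ) (B : ℕ)
    (b0 : ∀ j, j < n → ∀ δ, hh D (U j) (L j) δ ≠ ⊤)
    (b1 : ∀ j, j < n → ∀ δ, δ < 0 → hh D (U j) (L j) δ ≤ (B : ℕ∞))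
    (b2 : ∀ j, j < n → ∀ δ, 2 ≤ δ → hh D (L (j + 1)) (U j) δ ≤ (B : ℕ∞))
    (b3 : ∀ j, n ≤ j → j < n + N → ∀ δ, 2 ≤ δ → hh D (L (j + 1)) (L j) δ ≤ (B : ℕ∞))
    (χ : ℕ → ℤ) (hχ : ∀ j, j < n → xi (n + c) (hh D (U j) (L j)) = -χ j)
    (low : ∀ δ, δ < 0 → hh D (L 0) X δ = 0) (fin : ∀ δ, hh D (L 0) X δ ≠ ⊤)
    (van : ∀ δ, 1 ≤ δ → zz D (L n) X δ ≤ bb D (L (n + N)) X δ) :
    ∑ j ∈ Finset.range n, χ j - (2 * n + c) * ((n + N) * B : ℕ) ≤ xi (n + c) (hh D (L 0) X) := by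
  classical
  obtain ⟨E, hE⟩ : ∃ E : ℕ → ℤ → Submodule S 𝕋, E = fun j δ => G δ ⊓ L j δ := ⟨_, rfl⟩
  have Lm : ∀ i j, i ≤ j → ∀ δ, L i δ ≤ L j δ := by
    intro i j hij δ
    induction j, hij using Nat.le_induction with
    | base => exact le_rfl
    | succ j _ ih => exact ih.trans (Lmono j δ)
  have Est : ∀ j, Stab D (E j) := by
    intro j δ x hx
    rw [hE] at hx ⊢
    exact ⟨Gst δ x hx.1, Lst j δ x hx.2⟩
  have Emono : ∀ j δ, E j δ ≤ E (j + 1) δ := by
    intro j δ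
    rw [hE]
    exact inf_le_inf_left _ (Lmono j δ)
  have E0 : E 0 = L 0 := by
    rw [hE]
    funext δ
    exact inf_of_le_right (L0G δ)
  have En : E n = G := by
    rw [hE]
    funext δ
    exact inf_of_le_left (GLn δ)
  have XE : ∀ j δ, X δ ≤ E j δ := by
    intro j δ
    induction j with
    | zero => rw [E0]; exact XL δ
    | succ j ih => exact ih.trans (Emono j δ)
  have EL : ∀ j δ, E j δ ≤ L j δ := by
    intro j δ
    rw [hE]
    exact inf_le_right
  have XG : ∀ δ, X δ ≤ G δ := fun δ => (XL δ).trans (L0G δ)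
  have win : ∀ j, ∀ δ, hh D (E (j + 1)) (E j) δ = hh D (U j) (L j) δ := by
    intro j δ
    refine hh_iso D (E j) (E (j + 1)) (L j) (U j) (Est j) (Est (j + 1)) (Lst j) ?_ ?_ δ
    · intro δ
      rw [hE]
      change (G δ ⊓ L (j + 1) δ) ⊓ L j δ = G δ ⊓ L j δ
      rw [inf_assoc, inf_of_le_right (Lmono j δ)]
    · intro δ
      rw [hE]
      exact GU j δ
  -- (a)
  have ha : ∀ j, j ≤ n → ∀ δ, δ < 0 → hh D (E j) X δ ≤ ((j * B : ℕ) : ℕ∞) := by
    intro j hj δ hδ
    induction j with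
    | zero => rw [E0, low δ hδ]; exact zero_le
    | succ j ih =>
      refine (hh_le_add D hD X (E j) (E (j + 1)) Xst (Est j) (Est (j + 1)) (XE j) (Emono j)
        δ).trans ?_
      rw [win j δ]
      have e : (((j + 1) * B : ℕ) : ℕ∞) = (B : ℕ∞) + ((j * B : ℕ) : ℕ∞) := by
        rw [← Nat.cast_add]
        congr 1
        ring
      rw [e]
      exact add_le_add (b1 j (by omega) δ hδ) (ih (by omega))
  have hfinE : ∀ j, j ≤ n → ∀ δ, hh D (E j) X δ ≠ ⊤ := by
    intro j hj δ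
    induction j with
    | zero => rw [E0]; exact fin δ
    | succ j ih =>
      refine ne_top_of_le_ne_top ?_ (hh_le_add D hD X (E j) (E (j + 1)) Xst (Est j)
        (Est (j + 1)) (XE j) (Emono j) δ)
      rw [win j δ]
      exact WithTop.add_ne_top.mpr ⟨b0 j (by omega) δ, ih (by omega)⟩
  have hxi : ∀ j, j ≤ n → xi (n + c) (hh D (E j) X) =
      xi (n + c) (hh D (L 0) X) - ∑ i ∈ Finset.range j, χ i := by
    intro j hj
    induction j with
    | zero => rw [E0]; simp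
    | succ j ih =>
      rw [xi_add (n + c) D hD X (E j) (E (j + 1)) Xst (Est j) (Est (j + 1)) (XE j) (Emono j)
        (fun δ => by rw [win j δ]; exact b0 j (by omega) δ) (hfinE j (by omega)) ?_,
        ih (by omega), Finset.sum_range_succ]
      · have : hh D (E (j + 1)) (E j) = hh D (U j) (L j) := funext (win j)
        rw [this, hχ j (by omega)]
        ring
      · intro δ hδ
        have hδ' : δ ≤ -(n : ℤ) ∨ (n : ℤ) + c < δ := by
          push_cast at hδ
          omega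
        constructor
        · exact cg_hh_out S D _ _ δ ((EL _ δ).trans ((Lout _ δ hδ').trans (XE j δ)))
        · exact cg_hh_out S D _ _ δ ((EL _ δ).trans (Lout _ δ hδ'))
  -- (b)
  obtain ⟨F, hF⟩ : ∃ F : ℕ → ℤ → Submodule S 𝕋, F = fun j δ => G δ ⊔ L j δ := ⟨_, rfl⟩
  have Fst : ∀ j, Stab D (F j) := by
    intro j δ x hx
    rw [hF] at hx ⊢
    obtain ⟨y, hy, z, hz, rfl⟩ := Submodule.mem_sup.mp hx
    rw [map_add]
    exact Submodule.add_mem_sup (Gst δ y hy) (Lst j δ z hz)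
  have Fmono : ∀ j δ, F j δ ≤ F (j + 1) δ := by
    intro j δ
    rw [hF]
    exact sup_le_sup_left (Lmono j δ) _
  have F0 : F 0 = G := by
    rw [hF]
    funext δ
    exact sup_of_le_left (L0G δ)
  have Fn : ∀ j, n ≤ j → F j = L j := by
    intro j hj
    rw [hF]
    funext δ
    exact sup_of_le_right ((GLn δ).trans (Lm n j hj δ))
  have GF : ∀ j δ, G δ ≤ F j δ := by
    intro j δ
    rw [hF]
    exact le_sup_left
  have win2 : ∀ j, ∀ δ, hh D (F (j + 1)) (F j) δ = hh D (L (j + 1)) (U j) δ := by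
    intro j δ
    symm
    have hU : Stab D (U j) := by
      intro δ x hx
      rw [← GU j δ] at hx
      rw [← GU j (δ - 1)]
      obtain ⟨y, hy, z, hz, rfl⟩ := Submodule.mem_sup.mp hx
      rw [map_add]
      exact Submodule.add_mem_sup ⟨Gst δ y hy.1, Lst (j + 1) δ y hy.2⟩ (Lst j δ z hz)
    refine hh_iso D (U j) (L (j + 1)) (F j) (F (j + 1)) hU (Lst (j + 1)) (Fst j) ?_ ?_ δ
    · intro δ
      rw [hF, ← GU j δ]
      change L (j + 1) δ ⊓ (G δ ⊔ L j δ) = _
      rw [inf_comm, sup_comm (G δ), sup_inf_assoc_of_le _ (Lmono j δ), sup_comm]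
    · intro δ
      rw [hF]
      change L (j + 1) δ ⊔ (G δ ⊔ L j δ) = G δ ⊔ L (j + 1) δ
      rw [sup_left_comm, sup_of_le_left (Lmono j δ)]
  have hb : ∀ j, j ≤ n + N → ∀ δ, 2 ≤ δ → hh D (F j) G δ ≤ ((j * B : ℕ) : ℕ∞) := by
    intro j hj δ hδ
    induction j with
    | zero =>
      rw [F0, cg_hh_out S D _ _ δ le_rfl]
      exact zero_le
    | succ j ih =>
      refine (hh_le_add D hD G (F j) (F (j + 1)) Gst (Fst j) (Fst (j + 1)) (GF j) (Fmono j)
        δ).trans ?_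
      have e : (((j + 1) * B : ℕ) : ℕ∞) = (B : ℕ∞) + ((j * B : ℕ) : ℕ∞) := by
        rw [← Nat.cast_add]
        congr 1
        ring
      rw [e]
      refine add_le_add ?_ (ih (by omega))
      by_cases hjn : j < n
      · rw [win2 j δ]
        exact b2 j hjn δ hδ
      · rw [Fn j (by omega), Fn (j + 1) (by omega)]
        exact b3 j (by omega) (by omega) δ hδ
  have hG1 : ∀ δ, 1 ≤ δ → hh D G X δ ≤ (((n + N) * B : ℕ) : ℕ∞) := by
    intro δ hδ
    have h1 : zz D G X δ ≤ bb D (L (n + N)) X δ :=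
      (inf_le_inf_right _ (GLn δ)).trans (van δ hδ)
    refine (hh_le_of_zz_le D hD X G (L (n + N)) Xst Gst (Lst _) XG
      (fun δ => (GLn δ).trans (Lm n (n + N) (by omega) δ)) δ h1).trans ?_
    have h2 := hb (n + N) le_rfl (δ + 1) (by omega)
    rwa [Fn (n + N) (by omega)] at h2
  have hG2 : ∀ δ, δ < 0 → hh D G X δ ≤ (((n + N) * B : ℕ) : ℕ∞) := by
    intro δ hδ
    have h1 := ha n le_rfl δ hδ
    rw [En] at h1
    refine h1.trans ?_
    exact_mod_cast Nat.mul_le_mul_right B (Nat.le_add_right n N)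
  have hG3 : ∀ δ, δ ≤ -(n : ℤ) → hh D G X δ = 0 := fun δ hδ =>
    cg_hh_out S D _ _ δ ((GLn δ).trans (Lout n δ (Or.inl hδ)))
  have h1 := cg_xi_lower n c (hh D G X) ((n + N) * B) hG3 (by
    intro δ hδ
    rcases lt_or_gt_of_ne hδ with h | h
    · exact hG2 δ h
    · exact hG1 δ (by omega))
  have h2 := hxi n le_rfl
  rw [En] at h2
  rw [h2] at h1
  linarith

/-- TASK GEN-7: the core theorem with errors, relative to a bottom family `Winf`. -/
theorem core_gen (deg : ι → ℤ) (Q : Matrix ι ι S) (hQ : IsCx deg Q) (n : ℕ) (hn : 1 ≤ n)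
    (hdeg : ∀ a, 0 ≤ deg a ∧ deg a ≤ n) (d : V →ₗ[A] V) (hd : ∀ x, d (d x) = 0) (c N : ℕ)
    (W : ℕ → ℤ → Submodule A V) (hW : ∀ j, CStab d (W j)) (mono : ∀ j p, W j p ≤ W (j + 1) p)
    (Winf : ℤ → Submodule A V) (hWinf : CStab d Winf) (monoinf : ∀ p, Winf p ≤ W 0 p)
    (hout : ∀ j p, (p < -(c : ℤ) ∨ (n : ℤ) ≤ p) → W j p ≤ Winf p)
    (push : ∀ j, j < n + N → ∀ p, maximalIdeal A • W (j + 1) p ≤ W j p)
    (h : ℕ → ℤ → ℕ) (hh' : ∀ j, j < n + N → ∀ p, hc d (W (j + 1)) (W j) p = h j p)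
    (P : ℕ → ℤ) (hP1 : ∀ j : ℕ, j < n → (j : ℤ) - 1 ≤ P j ∧ P j ≤ j)
    (hP2 : ∀ j : ℕ, n ≤ j → P j = n - 1) (ε : ℕ)
    (small : ∀ j, j < n + N → ∀ p, p ≠ P j → h j p ≤ ε)
    (t : ℤ → ℕ) (ht : ∀ i, kh deg Q (S ⧸ (maximalIdeal A).map (algebraMap A S)) i = t i)
    (r : ℤ → ℤ) (hr : ∀ i, (t i : ℤ) = r i + r (i + 1)) (hr' : ∀ i, (n : ℤ) < i → r i = 0)
    (low : ∀ δ, δ < 0 → hh (tot deg Q (d.baseChange S)) (lift deg (bcf S (W 0)))
      (lift deg (bcf S Winf)) δ = 0)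
    (fin : ∀ δ, hh (tot deg Q (d.baseChange S)) (lift deg (bcf S (W 0)))
      (lift deg (bcf S Winf)) δ ≠ ⊤)
    (van : ∀ δ, 1 ≤ δ → zz (tot deg Q (d.baseChange S)) (lift deg (bcf S (W n)))
      (lift deg (bcf S Winf)) δ ≤ bb (tot deg Q (d.baseChange S)) (lift deg (bcf S (W (n + N))))
      (lift deg (bcf S Winf)) δ) :
    ∑ j ∈ Finset.range n, (-1 : ℤ) ^ j *
        (∑ p ∈ Finset.Ico (-(c : ℤ)) n, (p.negOnePow : ℤ) * (h j p : ℤ)) * r (j + 1) -
        (2 * n + c) * (n + N) * (∑ i ∈ Finset.range (n + 1), (t i : ℤ)) * ε ≤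
      ∑ i ∈ Finset.range (n + c + 1), (-1 : ℤ) ^ i *
        ((hh (tot deg Q (d.baseChange S)) (lift deg (bcf S (W 0)))
          (lift deg (bcf S Winf)) (i : ℤ)).toNat : ℤ) := by
  classical
  have hdS := cg_dd S d hd
  have hD : ∀ x, (tot deg Q (d.baseChange S)) ((tot deg Q (d.baseChange S)) x) = 0 :=
    fun f => tot_tot deg Q hQ (d.baseChange S) hdS f
  have Lst : ∀ j, Stab (tot deg Q (d.baseChange S)) (lift deg (bcf S (W j))) := fun j =>
    lift_stab deg Q hQ (d.baseChange S) _ (cg_cstab S d _ (hW j))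
  have X0st : Stab (tot deg Q (d.baseChange S)) (lift deg (bcf S Winf)) :=
    lift_stab deg Q hQ (d.baseChange S) _ (cg_cstab S d _ hWinf)
  have Gst : Stab (tot deg Q (d.baseChange S)) (GG S deg Q W) :=
    gg_stab S deg Q hQ (fun a => (hdeg a).1) d W hW
  have TGst : ∀ j : ℕ, Stab (tot deg Q (d.baseChange S)) (TG S deg Q j (W (j + 1)) (W j)) :=
    fun j => tg_stab S deg Q hQ j d _ _ (hW j) (hW (j + 1)) (mono j)
  have Lmono : ∀ j δ, lift deg (bcf S (W j)) δ ≤ lift deg (bcf S (W (j + 1))) δ := fun j δ =>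
    lift_mono deg (fun p => Submodule.baseChange_mono S (mono j p)) δ
  have X0L : ∀ δ, lift deg (bcf S Winf) δ ≤ lift deg (bcf S (W 0)) δ := fun δ =>
    lift_mono deg (fun p => Submodule.baseChange_mono S (monoinf p)) δ
  have L0G : ∀ δ, lift deg (bcf S (W 0)) δ ≤ GG S deg Q W δ := lift_le_gg S deg Q hQ W mono
  have GLn : ∀ δ, GG S deg Q W δ ≤ lift deg (bcf S (W n)) δ := gg_le_lift S deg Q n hdeg W mono
  have GTG : ∀ (j : ℕ) δ, (GG S deg Q W δ ⊓ lift deg (bcf S (W (j + 1))) δ) ⊔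
      lift deg (bcf S (W j)) δ = TG S deg Q j (W (j + 1)) (W j) δ :=
    gg_tg S deg Q hQ (fun a => (hdeg a).1) W mono
  have Wm : ∀ j p, W 0 p ≤ W j p := by
    intro j p
    induction j with
    | zero => exact le_rfl
    | succ j ih => exact ih.trans (mono j p)
  have hout1 : ∀ j p, (p < -(c : ℤ) ∨ (n : ℤ) ≤ p) → W (j + 1) p ≤ W j p := fun j p hp =>
    (hout (j + 1) p hp).trans ((monoinf p).trans (Wm j p))
  have hout2 : ∀ j δ, (δ ≤ -(n : ℤ) ∨ (n : ℤ) + c < δ) →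
      lift deg (bcf S (W j)) δ ≤ lift deg (bcf S Winf) δ := by
    intro j δ hδ f hf
    rw [mem_lift] at hf ⊢
    intro a
    have := hdeg a
    exact Submodule.baseChange_mono S (hout j _ (by omega)) (hf a)
  have t0 : ∀ i, i < 0 → t i = 0 := by
    intro i hi
    have := ht i
    rw [cg_kh_neg S deg Q (fun a => (hdeg a).1) _ i hi] at this
    exact_mod_cast this.symm
  have tn : ∀ i, (n : ℤ) < i → t i = 0 := by
    intro i hi
    have := hr i
    rw [hr' i hi, hr' (i + 1) (by omega)] at this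
    exact_mod_cast this
  have hlow : ∀ j, j < n + N → ∀ (i : ℤ), -1 ≤ i → ∀ δ,
      hh (tot deg Q (d.baseChange S)) (TG S deg Q i (W (j + 1)) (W j)) (lift deg (bcf S (W j))) δ ≤
      ((∑ p ∈ Finset.Ico (-(c : ℤ)) n, if i + 1 ≤ δ + p then h j p * t (δ + p) else 0 : ℕ) :
        ℕ∞) := fun j hj i hi δ =>
    tg_lower S deg Q hQ n hdeg d hd _ _ (hW j) (hW (j + 1)) (mono j) c (hout1 j) (push j hj)
      (h j) (hh' j hj) t ht i hi δ
  have hup : ∀ j, j < n + N → ∀ (i : ℤ), -1 ≤ i → ∀ δ,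
      hh (tot deg Q (d.baseChange S)) (lift deg (bcf S (W (j + 1))))
        (TG S deg Q i (W (j + 1)) (W j)) δ ≤
      ((∑ p ∈ Finset.Ico (-(c : ℤ)) n, if δ + p ≤ i then h j p * t (δ + p) else 0 : ℕ) :
        ℕ∞) := fun j hj i hi δ =>
    tg_upper S deg Q hQ n hdeg d hd _ _ (hW j) (hW (j + 1)) (mono j) c (hout1 j) (push j hj)
      (h j) (hh' j hj) t ht i hi δ
  have TGneg : ∀ j, TG S deg Q (-1) (W (j + 1)) (W j) = lift deg (bcf S (W (j + 1))) := by
    intro j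
    funext δ
    rw [TG, inf_eq_left]
    intro f _
    refine ⟨?_, ?_⟩
    · rw [SetLike.mem_coe, Submodule.mem_pi]
      intro a _
      rw [if_neg (by have := hdeg a; omega)]
      exact Submodule.mem_top
    · rw [SetLike.mem_coe, Submodule.mem_comap, Submodule.mem_pi]
      intro a _
      rw [if_neg (by have := hdeg a; omega)]
      exact Submodule.mem_top
  have main := cg_abs S (tot deg Q (d.baseChange S)) hD n c N
    (fun j => lift deg (bcf S (W j))) (lift deg (bcf S Winf)) (GG S deg Q W)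
    (fun j : ℕ => TG S deg Q j (W (j + 1)) (W j)) Lst X0st Gst Lmono X0L L0G GLn GTG
    (fun j δ hδ => hout2 j δ hδ) (ε * ∑ i ∈ Finset.range (n + 1), t i)
    (fun j hj δ => ne_top_of_le_ne_top (ENat.natCast_ne_top _)
      (hlow j (by omega) j (by omega) δ))
    (fun j hj δ hδ => (hlow j (by omega) j (by omega) δ).trans (by
      exact_mod_cast cg_sum_le n c t t0 tn (h j) (P j) ε (small j (by omega)) δ
        (fun p => (j : ℤ) + 1 ≤ δ + p) (fun hq => by have := hP1 j hj; omega)))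
    (fun j hj δ hδ => (hup j (by omega) j (by omega) δ).trans (by
      exact_mod_cast cg_sum_le n c t t0 tn (h j) (P j) ε (small j (by omega)) δ
        (fun p => δ + p ≤ (j : ℤ)) (fun hq => by have := hP1 j hj; omega)))
    (fun j hj1 hj2 δ hδ => by
      have h1 := hlow j hj2 (-1) le_rfl δ
      rw [TGneg] at h1
      refine h1.trans ?_
      exact_mod_cast cg_sum_le n c t t0 tn (h j) (P j) ε (small j hj2) δ
        (fun p => (-1 : ℤ) + 1 ≤ δ + p) (fun hq => by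
          rw [hP2 j hj1, tn (δ + ((n : ℤ) - 1)) (by omega), mul_zero]))
    (fun j => (-1 : ℤ) ^ j *
        (∑ p ∈ Finset.Ico (-(c : ℤ)) n, (p.negOnePow : ℤ) * (h j p : ℤ)) * r (j + 1))
    (fun j hj => by
      rw [tg_lower_xi S deg Q hQ n hdeg d hd _ _ (hW j) (hW (j + 1)) (mono j) c (hout1 j)
        (push j (by omega)) (h j) (hh' j (by omega)) t ht j (by omega),
        cg_tele n (fun i => (t i : ℤ)) r hr hr' j hj]
      ring)
    low fin van
  have hxi : xi (n + c) (hh (tot deg Q (d.baseChange S)) (lift deg (bcf S (W 0)))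
      (lift deg (bcf S Winf))) = ∑ i ∈ Finset.range (n + c + 1), (-1 : ℤ) ^ i *
        ((hh (tot deg Q (d.baseChange S)) (lift deg (bcf S (W 0)))
          (lift deg (bcf S Winf)) (i : ℤ)).toNat : ℤ) := by
    rw [xi]
    symm
    refine Finset.sum_of_injOn (fun i : ℕ => (i : ℤ)) ?_ ?_ ?_ ?_
    · intro i _ j _ hij
      simpa using hij
    · intro i hi
      simp only [Finset.coe_range, Set.mem_Iio] at hi
      simp only [Finset.coe_Icc, Set.mem_Icc]
      push_cast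
      omega
    · intro δ hδ hδ'
      have : δ < 0 := by
        by_contra hc
        apply hδ'
        rw [Finset.mem_Icc] at hδ
        refine ⟨δ.toNat, ?_, ?_⟩
        · simp only [Finset.coe_range, Set.mem_Iio]
          push_cast at hδ
          omega
        · simp only
          omega
      rw [low δ this]
      simp
    · intro i _
      rw [cg_nop]
  rw [← hxi]
  refine le_trans (le_of_eq ?_) main
  push_cast
  ring

end CoreG

end Vale.Agent.P202.CharP.Gen
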