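import Vale.Agent.P202.CharP.DefsF

/-!
P202-GEN, definitions: lengths of cohomology, Euler characteristics, truncated families, the
décalage family.
-/

namespace Vale.Agent.P202.CharP.Gen

open Submodule TensorProduct IsLocalRing

section Hom

variable {S 𝕋 : Type*} [CommRing S] [AddCommGroup 𝕋] [Module S 𝕋]

/-- the zero family. -/
def zf (S 𝕋 : Type*) [CommRing S] [AddCommGroup 𝕋] [Module S 𝕋] : ℤ → Submodule S 𝕋 := fun _ => ⊥

/-- length of the cohomology of `Y / X` in degree `p`. -/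
noncomputable def hc (d : 𝕋 →ₗ[S] 𝕋) (Y X : ℤ → Submodule S 𝕋) (p : ℤ) : ℕ∞ :=
  rl (cb d Y X p) (cz d Y X p)

/-- two-sided Euler characteristic. -/
noncomputable def xi (n : ℕ) (f : ℤ → ℕ∞) : ℤ :=
  ∑ δ ∈ Finset.Icc (-(n : ℤ)) n, (δ.negOnePow : ℤ) * ((f δ).toNat : ℤ)

/-- Euler characteristic, cohomological degrees in `[-c, n)`. -/
noncomputable def xic (c n : ℕ) (f : ℤ → ℕ∞) : ℤ :=
  ∑ p ∈ Finset.Ico (-(c : ℤ)) n, (p.negOnePow : ℤ) * ((f p).toNat : ℤ)

end Hom

section Trunc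

variable {A : Type*} [CommRing A] {V : Type*} [AddCommGroup V] [Module A V]
  (S : Type*) [CommRing S] [Algebra A S] {ι : Type*} [Fintype ι]

/-- the truncated family: the part of `Q ⊗ (Y / X)` formed with the canonical truncation
`τ_{≥ j+1}` of `Q`. -/
def TG (deg : ι → ℤ) (Q : Matrix ι ι S) (j : ℤ) (Y X : ℤ → Submodule A V) (δ : ℤ) :
    Submodule S (ι → S ⊗[A] V) :=
  lift deg (bcf S Y) δ ⊓
    (Submodule.pi Set.univ (fun a => if deg a ≤ j then bcf S X (deg a - δ) else ⊤) ⊓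
      (Submodule.pi Set.univ
        (fun a => if deg a ≤ j then bcf S X (deg a - δ + 1) else ⊤)).comap (act Q (S ⊗[A] V)))

/-- the décalage subcomplex of a chain of families. -/
def GG (deg : ι → ℤ) (Q : Matrix ι ι S) (W : ℕ → ℤ → Submodule A V) (δ : ℤ) :
    Submodule S (ι → S ⊗[A] V) :=
  Submodule.pi Set.univ (fun a => bcf S (W (deg a).toNat) (deg a - δ)) ⊓
    (Submodule.pi Set.univ
      (fun a => bcf S (W (deg a).toNat) (deg a - δ + 1))).comap (act Q (S ⊗[A] V))

end Trunc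

end Vale.Agent.P202.CharP.Gen
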